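import Mathlib

/-!
# P050: positive correlation of Bruhat monotone functions on the symmetric group
-/

namespace P050

open Finset

/-- the permutation `0 ↦ c`, `i + 1 ↦ c.succAbove (ρ i)` -/
private def pcPhi {k : ℕ} (c : Fin (k + 1)) (ρ : Equiv.Perm (Fin k)) : Equiv.Perm (Fin (k + 1)) :=
  c.cycleRange.symm * Equiv.Perm.decomposeFin.symm (0, ρ)

private theorem pcPhi_zero {k : ℕ} (c : Fin (k + 1)) (ρ : Equiv.Perm (Fin k)) :
    pcPhi c ρ 0 = c := by
  unfold pcPhi
  rw [Equiv.Perm.mul_apply, Equiv.Perm.decomposeFin_symm_apply_zero, Fin.cycleRange_symm_zero]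

private theorem pcPhi_succ {k : ℕ} (c : Fin (k + 1)) (ρ : Equiv.Perm (Fin k)) (i : Fin k) :
    pcPhi c ρ i.succ = c.succAbove (ρ i) := by
  unfold pcPhi
  rw [Equiv.Perm.mul_apply, Equiv.Perm.decomposeFin_symm_apply_succ, Equiv.swap_self,
    Equiv.refl_apply, Fin.cycleRange_symm_succ]

private theorem pcPhi_bij (k : ℕ) : Function.Bijective
    (fun q : Fin (k + 1) × Equiv.Perm (Fin k) => pcPhi q.1 q.2) := by
  rw [Fintype.bijective_iff_injective_and_card]
  constructor
  · rintro ⟨c, ρ⟩ ⟨c', ρ'⟩ h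
    have h0 : c = c' := by
      have := Equiv.congr_fun h 0
      simpa only [pcPhi_zero] using this
    subst h0
    have h1 : ρ = ρ' := by
      ext1 i
      have := Equiv.congr_fun h i.succ
      simp only [pcPhi_succ] at this
      exact Fin.succAbove_right_injective this
    rw [h1]
  · rw [Fintype.card_prod, Fintype.card_perm, Fintype.card_perm, Fintype.card_fin,
      Fintype.card_fin, Nat.factorial_succ]

private theorem pcPhi_sum {k : ℕ} (F : Equiv.Perm (Fin (k + 1)) → ℝ) :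
    ∑ π, F π = ∑ c, ∑ ρ, F (pcPhi c ρ) := by
  rw [← Fintype.sum_prod_type' (f := fun c ρ => F (pcPhi c ρ))]
  exact ((pcPhi_bij k).sum_comp F).symm

private theorem pcPhi_mul_swap {k : ℕ} (c : Fin (k + 1)) (ρ : Equiv.Perm (Fin k)) (i j : Fin k) :
    pcPhi c (ρ * Equiv.swap i j) = pcPhi c ρ * Equiv.swap i.succ j.succ := by
  ext1 x
  refine Fin.cases ?_ (fun m => ?_) x
  · rw [pcPhi_zero, Equiv.Perm.mul_apply, Equiv.swap_apply_of_ne_of_ne (Fin.succ_ne_zero i).symm
      (Fin.succ_ne_zero j).symm, pcPhi_zero]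
  · rw [pcPhi_succ, Equiv.Perm.mul_apply, Equiv.Perm.mul_apply,
      (Fin.succ_injective k).swap_apply i j m, pcPhi_succ]

private theorem pc_succAbove {k : ℕ} {a m : Fin k} (h : m ≠ a) :
    a.succ.succAbove m = a.castSucc.succAbove m := by
  rcases lt_or_gt_of_ne h with h | h
  · rw [Fin.succAbove_of_castSucc_lt _ _ (by rw [Fin.lt_def] at *; simp; omega),
      Fin.succAbove_of_castSucc_lt _ _ (by rw [Fin.lt_def] at *; simpa using h)]
  · rw [Fin.succAbove_of_le_castSucc _ _ (by rw [Fin.lt_def] at h; rw [Fin.le_def]; simp; omega),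
      Fin.succAbove_of_le_castSucc _ _ (by rw [Fin.lt_def] at h; rw [Fin.le_def]; simp; omega)]

private theorem pcPhi_step {k : ℕ} (a : Fin k) (ρ : Equiv.Perm (Fin k)) :
    pcPhi a.succ ρ = pcPhi a.castSucc ρ * Equiv.swap 0 (ρ.symm a).succ := by
  ext1 x
  refine Fin.cases ?_ (fun m => ?_) x
  · rw [pcPhi_zero, Equiv.Perm.mul_apply, Equiv.swap_apply_left, pcPhi_succ,
      Equiv.apply_symm_apply, Fin.succAbove_castSucc_self]
  · by_cases h : m = ρ.symm a
    · rw [h, pcPhi_succ, Equiv.Perm.mul_apply, Equiv.swap_apply_right, pcPhi_zero,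
        Equiv.apply_symm_apply, Fin.succAbove_succ_self]
    · rw [pcPhi_succ, Equiv.Perm.mul_apply, Equiv.swap_apply_of_ne_of_ne (Fin.succ_ne_zero m)
        (fun h' => h (Fin.succ_injective _ h')), pcPhi_succ]
      refine pc_succAbove fun h' => h ?_
      rw [← h', Equiv.symm_apply_apply]

private theorem pc_anti {k : ℕ} {f : Equiv.Perm (Fin (k + 1)) → ℝ}
    (hf : ∀ (π : Equiv.Perm (Fin (k + 1))) (i j : Fin (k + 1)), i < j → π i < π j →
      f (π * Equiv.swap i j) ≤ f π) : Antitone fun c => ∑ ρ, f (pcPhi c ρ) := by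
  rcases Nat.eq_zero_or_pos k with rfl | hk
  · intro a b _
    rw [show a = b from Fin.ext (by omega)]
  · obtain ⟨m, rfl⟩ : ∃ m, k = m + 1 := ⟨k - 1, by omega⟩
    rw [Fin.antitone_iff_succ_le]
    intro a
    refine Finset.sum_le_sum fun ρ _ => ?_
    rw [pcPhi_step a ρ]
    refine hf _ _ _ (Fin.succ_pos _) ?_
    rw [pcPhi_zero, pcPhi_succ, Equiv.apply_symm_apply, Fin.succAbove_castSucc_self]
    exact Fin.castSucc_lt_succ

/-- Johnson-Leader-Long: two functions on `S_k` which decrease when an increasing pair is swapped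
are positively correlated. -/
theorem perm_corr (k : ℕ) (f g : Equiv.Perm (Fin k) → ℝ)
    (hf : ∀ (π : Equiv.Perm (Fin k)) (i j : Fin k), i < j → π i < π j →
      f (π * Equiv.swap i j) ≤ f π)
    (hg : ∀ (π : Equiv.Perm (Fin k)) (i j : Fin k), i < j → π i < π j →
      g (π * Equiv.swap i j) ≤ g π) :
    (∑ π, f π) * (∑ π, g π) ≤ (k.factorial : ℝ) * ∑ π, f π * g π := by
  induction k with
  | zero =>
    have h : ∀ F : Equiv.Perm (Fin 0) → ℝ, ∑ π, F π = F 1 := by
      intro F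
      rw [Fintype.sum_eq_single 1]
      intro π hπ
      exact absurd (Subsingleton.elim π 1) hπ
    rw [h, h, h]
    simp
  | succ k ih =>
    rw [pcPhi_sum f, pcPhi_sum g, pcPhi_sum fun π => f π * g π]
    have h1 : ∀ c : Fin (k + 1), (∑ ρ, f (pcPhi c ρ)) * (∑ ρ, g (pcPhi c ρ)) ≤
        (k.factorial : ℝ) * ∑ ρ, f (pcPhi c ρ) * g (pcPhi c ρ) := by
      intro c
      refine ih (fun ρ => f (pcPhi c ρ)) (fun ρ => g (pcPhi c ρ)) ?_ ?_
      · intro ρ i j hij hρ
        rw [pcPhi_mul_swap]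
        refine hf _ _ _ (Fin.succ_lt_succ_iff.2 hij) ?_
        rw [pcPhi_succ, pcPhi_succ]
        exact Fin.strictMono_succAbove c hρ
      · intro ρ i j hij hρ
        rw [pcPhi_mul_swap]
        refine hg _ _ _ (Fin.succ_lt_succ_iff.2 hij) ?_
        rw [pcPhi_succ, pcPhi_succ]
        exact Fin.strictMono_succAbove c hρ
    have h2 := ((pc_anti hf).monovary (pc_anti hg)).sum_mul_sum_le_card_mul_sum
    rw [Fintype.card_fin] at h2
    refine h2.trans ?_
    rw [Nat.factorial_succ, Nat.cast_mul, mul_assoc]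
    refine mul_le_mul_of_nonneg_left ?_ (Nat.cast_nonneg _)
    rw [Finset.mul_sum]
    exact Finset.sum_le_sum fun c _ => h1 c

end P050
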