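import Vale.Agent.Lib.P050.Defs
import Vale.Agent.Lib.P050.PermCorr

/-!
# P050: correlation inequality for arrangement increasing kernels
-/

namespace P050

open Finset

variable {I J : Type*}

theorem Corr_sum_comp {k : ℕ} (F : Equiv.Perm (Fin k) → ℝ) (a b : Equiv.Perm (Fin k)) :
    ∑ σ, F (b * σ * a) = ∑ π, F π := by
  have h1 := Equiv.sum_comp ((Equiv.mulLeft b).trans (Equiv.mulRight a)) F
  rw [← h1]
  rfl

theorem Corr_sym_inv {k : ℕ} (L : (Fin k → I) → (Fin k → J) → ℝ) (x : Fin k → I)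
    (y : Fin k → J) (σ : Equiv.Perm (Fin k)) : sym L x (y ∘ σ) = sym L x y := by
  unfold sym
  congr 1
  have h1 := Equiv.sum_comp (Equiv.mulLeft σ) fun τ : Equiv.Perm (Fin k) => L x (y ∘ τ)
  rw [← h1]
  rfl

theorem Corr_string {k : ℕ} [Fintype J] (g : (Fin k → J) → ℝ) (σ : Equiv.Perm (Fin k)) :
    ∑ y : Fin k → J, g (y ∘ σ) = ∑ y, g y := by
  have h1 := Equiv.sum_comp (Equiv.arrowCongr σ.symm (Equiv.refl J)) g
  rw [← h1]
  rfl

theorem Corr_pt {k : ℕ} (u : I → ℝ) (v : J → ℝ) (f L : (Fin k → I) → (Fin k → J) → ℝ)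
    (hf : AI u v f) (hL : AI u v L) (x : Fin k → I) (y : Fin k → J) :
    (∑ σ : Equiv.Perm (Fin k), f x (y ∘ σ)) * (∑ σ : Equiv.Perm (Fin k), L x (y ∘ σ)) ≤
      (k.factorial : ℝ) * ∑ σ : Equiv.Perm (Fin k), f x (y ∘ σ) * L x (y ∘ σ) := by
  obtain ⟨a, ha⟩ : ∃ a : Equiv.Perm (Fin k), Monotone ((u ∘ x) ∘ a) :=
    ⟨Tuple.sort (u ∘ x), Tuple.monotone_sort (u ∘ x)⟩
  obtain ⟨b, hb⟩ : ∃ b : Equiv.Perm (Fin k), Monotone ((v ∘ y) ∘ b) :=
    ⟨Tuple.sort (v ∘ y), Tuple.monotone_sort (v ∘ y)⟩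
  have key : ∀ g : (Fin k → I) → (Fin k → J) → ℝ, AI u v g → ∀ σ : Equiv.Perm (Fin k),
      g x (y ∘ σ) = g (x ∘ a) ((y ∘ b) ∘ (b⁻¹ * σ * a : Equiv.Perm (Fin k))) := by
    intro g hg σ
    rw [← hg.inv a x (y ∘ σ)]
    congr 1
    funext i
    simp [Function.comp_apply]
  have mono : ∀ g : (Fin k → I) → (Fin k → J) → ℝ, AI u v g →
      ∀ (π : Equiv.Perm (Fin k)) (i j : Fin k), i < j → π i < π j →
      g (x ∘ a) ((y ∘ b) ∘ (π * Equiv.swap i j : Equiv.Perm (Fin k))) ≤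
        g (x ∘ a) ((y ∘ b) ∘ π) := by
    intro g hg π i j hij hπ
    have h1 := hg.swap i j (x ∘ a) ((y ∘ b) ∘ π) (ha hij.le) (hb hπ.le)
    exact h1
  have h1 := perm_corr k (fun π => f (x ∘ a) ((y ∘ b) ∘ π)) (fun π => L (x ∘ a) ((y ∘ b) ∘ π))
    (mono f hf) (mono L hL)
  have e1 : ∑ σ : Equiv.Perm (Fin k), f x (y ∘ σ) =
      ∑ π : Equiv.Perm (Fin k), f (x ∘ a) ((y ∘ b) ∘ π) := by
    rw [← Corr_sum_comp (fun π : Equiv.Perm (Fin k) => f (x ∘ a) ((y ∘ b) ∘ π)) a b⁻¹]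
    exact Finset.sum_congr rfl fun σ _ => key f hf σ
  have e2 : ∑ σ : Equiv.Perm (Fin k), L x (y ∘ σ) =
      ∑ π : Equiv.Perm (Fin k), L (x ∘ a) ((y ∘ b) ∘ π) := by
    rw [← Corr_sum_comp (fun π : Equiv.Perm (Fin k) => L (x ∘ a) ((y ∘ b) ∘ π)) a b⁻¹]
    exact Finset.sum_congr rfl fun σ _ => key L hL σ
  have e3 : ∑ σ : Equiv.Perm (Fin k), f x (y ∘ σ) * L x (y ∘ σ) =
      ∑ π : Equiv.Perm (Fin k), f (x ∘ a) ((y ∘ b) ∘ π) * L (x ∘ a) ((y ∘ b) ∘ π) := by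
    rw [← Corr_sum_comp (fun π : Equiv.Perm (Fin k) =>
      f (x ∘ a) ((y ∘ b) ∘ π) * L (x ∘ a) ((y ∘ b) ∘ π)) a b⁻¹]
    exact Finset.sum_congr rfl fun σ _ => by rw [key f hf σ, key L hL σ]
  rw [e1, e2, e3]
  exact h1

/-- symmetrizing one of two arrangement increasing kernels decreases the pairing. -/
theorem corr {k : ℕ} [Fintype I] [Fintype J] [DecidableEq I] [DecidableEq J] (u : I → ℝ)
    (v : J → ℝ) (f L : (Fin k → I) → (Fin k → J) → ℝ) (hf : AI u v f) (hL : AI u v L) :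
    ∑ x : Fin k → I, ∑ y : Fin k → J, f x y * sym L x y ≤
      ∑ x : Fin k → I, ∑ y : Fin k → J, f x y * L x y := by
  refine Finset.sum_le_sum fun x _ => ?_
  have hN : (0 : ℝ) < (k.factorial : ℝ) := by exact_mod_cast k.factorial_pos
  have hcard : ((Finset.univ : Finset (Equiv.Perm (Fin k))).card : ℝ) = (k.factorial : ℝ) := by
    rw [Finset.card_univ, Fintype.card_perm, Fintype.card_fin]
  -- averaging over the permutations
  have avg : ∀ g : (Fin k → J) → ℝ, ∑ y : Fin k → J, ∑ σ : Equiv.Perm (Fin k), g (y ∘ σ) =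
      (k.factorial : ℝ) * ∑ y, g y := by
    intro g
    rw [Finset.sum_comm, Finset.sum_congr rfl fun σ _ => Corr_string g σ, Finset.sum_const,
      nsmul_eq_mul, hcard]
  have hsum : ∀ y : Fin k → J, ∑ σ : Equiv.Perm (Fin k), L x (y ∘ σ) =
      (k.factorial : ℝ) * sym L x y := by
    intro y
    unfold sym
    field_simp
  have h1 : ∑ y : Fin k → J, (∑ σ : Equiv.Perm (Fin k), f x (y ∘ σ)) *
      (∑ σ : Equiv.Perm (Fin k), L x (y ∘ σ)) ≤ ∑ y : Fin k → J, (k.factorial : ℝ) *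
        ∑ σ : Equiv.Perm (Fin k), f x (y ∘ σ) * L x (y ∘ σ) :=
    Finset.sum_le_sum fun y _ => Corr_pt u v f L hf hL x y
  have h2 : ∑ y : Fin k → J, (k.factorial : ℝ) *
        ∑ σ : Equiv.Perm (Fin k), f x (y ∘ σ) * L x (y ∘ σ) =
      (k.factorial : ℝ) * ((k.factorial : ℝ) * ∑ y, f x y * L x y) := by
    rw [← Finset.mul_sum, avg fun y => f x y * L x y]
  have h3 : ∑ y : Fin k → J, (∑ σ : Equiv.Perm (Fin k), f x (y ∘ σ)) *
      (∑ σ : Equiv.Perm (Fin k), L x (y ∘ σ)) =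
      (k.factorial : ℝ) * ((k.factorial : ℝ) * ∑ y, f x y * sym L x y) := by
    rw [← avg fun y => f x y * sym L x y, Finset.mul_sum]
    refine Finset.sum_congr rfl fun y _ => ?_
    rw [hsum y]
    simp only [Corr_sym_inv]
    rw [← Finset.sum_mul]
    ring
  rw [h2, h3] at h1
  exact le_of_mul_le_mul_left (le_of_mul_le_mul_left h1 hN) hN

end P050
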