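import Mathlib

/-!
# P050: Sidorenko inequality against TP2 / rank two kernels: definitions
-/

namespace P050

open Finset

variable {A B I J : Type*}

/-- weighted count of homomorphisms of the bipartite graph `E ⊆ A × B` into a family of matrices. -/
noncomputable def homF [Fintype A] [Fintype B] [DecidableEq A] [DecidableEq B] [Fintype I]
    [Fintype J] (E : Finset (A × B)) (L : A × B → I → J → ℝ) : ℝ :=
  ∑ φ : A → I, ∑ ψ : B → J, ∏ e ∈ E, L e (φ e.1) (ψ e.2)

/-- total positivity of order two with respect to real keys. -/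
def TP2 (u : I → ℝ) (v : J → ℝ) (w : I → J → ℝ) : Prop :=
  ∀ i i' j j', u i ≤ u i' → v j ≤ v j' → w i j' * w i' j ≤ w i j * w i' j'

/-- arrangement increasing kernels on strings of length `k`. -/
structure AI {k : ℕ} (u : I → ℝ) (v : J → ℝ) (L : (Fin k → I) → (Fin k → J) → ℝ) : Prop where
  nonneg : ∀ x y, 0 ≤ L x y
  inv : ∀ (σ : Equiv.Perm (Fin k)) (x : Fin k → I) (y : Fin k → J), L (x ∘ σ) (y ∘ σ) = L x y
  swap : ∀ (i j : Fin k) (x : Fin k → I) (y : Fin k → J), u (x i) ≤ u (x j) → v (y i) ≤ v (y j) →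
    L x (y ∘ Equiv.swap i j) ≤ L x y

/-- tensor power of a matrix. -/
noncomputable def tpow (k : ℕ) (w : I → J → ℝ) (x : Fin k → I) (y : Fin k → J) : ℝ :=
  ∏ i, w (x i) (y i)

/-- symmetrization of a kernel on strings. -/
noncomputable def sym {k : ℕ} (L : (Fin k → I) → (Fin k → J) → ℝ) (x : Fin k → I)
    (y : Fin k → J) : ℝ :=
  (∑ σ : Equiv.Perm (Fin k), L x (y ∘ σ)) / (k.factorial : ℝ)

/-- the marginal of a product of kernels on the pair `(a₀, b₀)`. -/
noncomputable def marg {k : ℕ} [Fintype A] [Fintype B] [DecidableEq A] [DecidableEq B] [Fintype I]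
    [Fintype J] [DecidableEq I] [DecidableEq J] (E : Finset (A × B))
    (L : A × B → (Fin k → I) → (Fin k → J) → ℝ) (a₀ : A) (b₀ : B) (x : Fin k → I)
    (y : Fin k → J) : ℝ :=
  ∑ φ : A → (Fin k → I), ∑ ψ : B → (Fin k → J),
    if φ a₀ = x ∧ ψ b₀ = y then ∏ e ∈ E, L e (φ e.1) (ψ e.2) else 0

end P050
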