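import Vale.Agent.Lib.P050.Defs

/-!
# P050: pigeonhole on types
-/

namespace P050

open Finset

variable {A B I J : Type*}

/-- the type of a string -/
def tyc {k : ℕ} [DecidableEq I] (x : Fin k → I) (c : I) : Fin (k + 1) :=
  ⟨#{i | x i = c}, Nat.lt_succ_of_le ((card_filter_le _ _).trans (by simp))⟩

theorem exists_perm {k : ℕ} [DecidableEq I] {x x0 : Fin k → I} (h : tyc x = tyc x0) :
    ∃ σ : Equiv.Perm (Fin k), x = x0 ∘ σ := by
  have h1 : ∀ c : I, Nonempty ({i // x i = c} ≃ {i // x0 i = c}) := by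
    intro c
    refine ⟨Fintype.equivOfCardEq ?_⟩
    rw [Fintype.card_subtype, Fintype.card_subtype]
    have := congrFun h c
    exact congrArg Fin.val this
  refine ⟨Equiv.ofFiberEquiv fun c => (h1 c).some, ?_⟩
  funext i
  exact (Equiv.ofFiberEquiv_map (fun c => (h1 c).some) i).symm

theorem card_pi_ite {k : ℕ} [Fintype A] [DecidableEq A] [Fintype I] [DecidableEq I]
    (A1 : Finset A) (X : Finset (Fin k → I)) :
    (#(Fintype.piFinset fun a => if a ∈ A1 then X else univ) : ℝ) =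
      (#X : ℝ) ^ #A1 * ((Fintype.card I : ℝ) ^ k) ^ (Fintype.card A - #A1) := by
  rw [Fintype.card_piFinset]
  have h1 : ∀ a : A, #(if a ∈ A1 then X else univ) =
      if a ∈ A1 then #X else Fintype.card I ^ k := by
    intro a
    split_ifs
    · rfl
    · simp
  simp_rw [h1]
  rw [prod_ite, prod_const, prod_const]
  have h2 : #{a | a ∈ A1} = #A1 := by
    congr 1
    ext a
    simp
  have h3 : #{a | a ∉ A1} = Fintype.card A - #A1 := by
    rw [← card_compl]
    congr 1
    ext a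
    simp
  rw [h2, h3]
  push_cast
  rfl

theorem pow_aux {p α : ℝ} (hp : 0 ≤ p) (hpa : p ≤ α) {m a a1 : ℕ} (h1 : a1 ≤ m) (h2 : a1 ≤ a) :
    p ^ m * α ^ a ≤ α ^ m * (p ^ a1 * α ^ (a - a1)) := by
  have hα : 0 ≤ α := hp.trans hpa
  obtain ⟨m', rfl⟩ := Nat.exists_eq_add_of_le h1
  obtain ⟨a', rfl⟩ := Nat.exists_eq_add_of_le h2
  rw [Nat.add_sub_cancel_left]
  have h3 : p ^ m' ≤ α ^ m' := pow_le_pow_left₀ hp hpa m'
  calc p ^ (a1 + m') * α ^ (a1 + a') = (p ^ a1 * α ^ a' * α ^ a1) * p ^ m' := by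
        rw [pow_add, pow_add]; ring
    _ ≤ (p ^ a1 * α ^ a' * α ^ a1) * α ^ m' :=
        mul_le_mul_of_nonneg_left h3 (by positivity)
    _ = α ^ (a1 + m') * (p ^ a1 * α ^ a') := by
        rw [pow_add]; ring

/-- lower bound for the homomorphism count of a kernel on strings which is invariant under
permutations of the positions on both sides. -/
theorem types_bound {k : ℕ} [Fintype A] [Fintype B] [DecidableEq A] [DecidableEq B] [Fintype I]
    [Fintype J] [DecidableEq I] [DecidableEq J] (E : Finset (A × B))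
    (K : (Fin k → I) → (Fin k → J) → ℝ) (h0 : ∀ x y, 0 ≤ K x y)
    (hK : ∀ (σ ρ : Equiv.Perm (Fin k)) (x : Fin k → I) (y : Fin k → J),
      K (x ∘ σ) (y ∘ ρ) = K x y) :
    (∑ x : Fin k → I, ∑ y : Fin k → J, K x y) ^ #E *
        (((Fintype.card I : ℝ) ^ k) ^ Fintype.card A * ((Fintype.card J : ℝ) ^ k) ^ Fintype.card B) ≤
      ((((k : ℝ) + 1) ^ (Fintype.card I + Fintype.card J)) *
        ((Fintype.card I : ℝ) ^ k * (Fintype.card J : ℝ) ^ k)) ^ #E *
        homF E (fun _ => K) := by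
  have hhom : 0 ≤ homF E (fun _ => K) :=
    sum_nonneg fun φ _ => sum_nonneg fun ψ _ => prod_nonneg fun e _ => h0 _ _
  -- sums over type classes
  obtain ⟨S, hS⟩ : ∃ S : (I → Fin (k + 1)) × (J → Fin (k + 1)) → ℝ, S = fun tu =>
      ∑ x : Fin k → I with tyc x = tu.1, ∑ y : Fin k → J with tyc y = tu.2, K x y := ⟨_, rfl⟩
  have hsum : ∑ x : Fin k → I, ∑ y : Fin k → J, K x y = ∑ tu, S tu := by
    rw [Fintype.sum_prod_type, ← sum_fiberwise (univ : Finset (Fin k → I))
      (fun x : Fin k → I => tyc x) (fun x => ∑ y : Fin k → J, K x y)]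
    refine sum_congr rfl fun t _ => ?_
    rw [hS]
    change _ = ∑ u : J → Fin (k + 1), ∑ x ∈ univ.filter (fun x : Fin k → I => tyc x = t),
      ∑ y ∈ univ.filter (fun y : Fin k → J => tyc y = u), K x y
    rw [sum_comm (s := (univ : Finset (J → Fin (k + 1))))]
    refine sum_congr rfl fun x _ => ?_
    exact (sum_fiberwise (univ : Finset (Fin k → J)) (fun y : Fin k → J => tyc y)
      (fun y => K x y)).symm
  obtain ⟨tu, -, hmax⟩ := exists_max_image (univ : Finset ((I → Fin (k + 1)) × (J → Fin (k + 1)))) S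
    ⟨(fun _ => 0, fun _ => 0), mem_univ _⟩
  have hle : ∑ x : Fin k → I, ∑ y : Fin k → J, K x y ≤
      ((k : ℝ) + 1) ^ (Fintype.card I + Fintype.card J) * S tu := by
    rw [hsum]
    calc ∑ tu', S tu' ≤ ∑ tu' : (I → Fin (k + 1)) × (J → Fin (k + 1)), S tu :=
          sum_le_sum fun i hi => hmax i hi
      _ = ((k : ℝ) + 1) ^ (Fintype.card I + Fintype.card J) * S tu := by
          rw [sum_const, nsmul_eq_mul]
          congr 1
          rw [card_univ, Fintype.card_prod, Fintype.card_fun, Fintype.card_fun, Fintype.card_fin]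
          push_cast
          rw [pow_add]
  have hSnn : 0 ≤ ∑ x : Fin k → I, ∑ y : Fin k → J, K x y :=
    sum_nonneg fun x _ => sum_nonneg fun y _ => h0 _ _
  obtain ⟨X, hX⟩ : ∃ X : Finset (Fin k → I), X = univ.filter fun x => tyc x = tu.1 := ⟨_, rfl⟩
  obtain ⟨Y, hY⟩ : ∃ Y : Finset (Fin k → J), Y = univ.filter fun y => tyc y = tu.2 := ⟨_, rfl⟩
  -- the kernel is constant on the class
  obtain ⟨κ, hκ0, hκ⟩ : ∃ κ : ℝ, 0 ≤ κ ∧ ∀ x ∈ X, ∀ y ∈ Y, K x y = κ := by
    by_cases hne : X.Nonempty ∧ Y.Nonempty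
    · obtain ⟨⟨x0, hx0⟩, y0, hy0⟩ := hne
      refine ⟨K x0 y0, h0 _ _, fun x hx y hy => ?_⟩
      rw [hX, mem_filter] at hx hx0
      rw [hY, mem_filter] at hy hy0
      obtain ⟨σ, rfl⟩ := exists_perm (hx.2.trans hx0.2.symm)
      obtain ⟨ρ, rfl⟩ := exists_perm (hy.2.trans hy0.2.symm)
      exact hK σ ρ x0 y0
    · refine ⟨0, le_rfl, fun x hx y hy => absurd ⟨⟨x, hx⟩, ⟨y, hy⟩⟩ hne⟩
  have hStu : S tu = #X * #Y * κ := by
    rw [hS]
    beta_reduce
    rw [← hX, ← hY]
    have h1 : ∀ x ∈ X, ∑ y ∈ Y, K x y = #Y * κ := by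
      intro x hx
      rw [sum_congr rfl fun y hy => hκ x hx y hy, sum_const, nsmul_eq_mul]
    rw [sum_congr rfl h1, sum_const, nsmul_eq_mul]
    ring
  -- lower bound for the count
  obtain ⟨A1, hA1⟩ : ∃ A1 : Finset A, A1 = E.image Prod.fst := ⟨_, rfl⟩
  obtain ⟨B1, hB1⟩ : ∃ B1 : Finset B, B1 = E.image Prod.snd := ⟨_, rfl⟩
  have hA1c : #A1 ≤ #E := by rw [hA1]; exact card_image_le
  have hB1c : #B1 ≤ #E := by rw [hB1]; exact card_image_le
  have hA1a : #A1 ≤ Fintype.card A := card_le_univ _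
  have hB1b : #B1 ≤ Fintype.card B := card_le_univ _
  have hlow : ((#X : ℝ) ^ #A1 * ((Fintype.card I : ℝ) ^ k) ^ (Fintype.card A - #A1)) *
      ((#Y : ℝ) ^ #B1 * ((Fintype.card J : ℝ) ^ k) ^ (Fintype.card B - #B1)) * κ ^ #E ≤
      homF E (fun _ => K) := by
    rw [← card_pi_ite (A := A) A1 X, ← card_pi_ite (A := B) B1 Y]
    unfold homF
    calc (#(Fintype.piFinset fun a => if a ∈ A1 then X else univ) : ℝ) *
          (#(Fintype.piFinset fun b => if b ∈ B1 then Y else univ) : ℝ) * κ ^ #E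
        = ∑ φ ∈ Fintype.piFinset (fun a => if a ∈ A1 then X else univ),
            ∑ ψ ∈ Fintype.piFinset (fun b => if b ∈ B1 then Y else univ),
              ∏ e ∈ E, K (φ e.1) (ψ e.2) := by
          have h1 : ∀ φ ∈ Fintype.piFinset (fun a => if a ∈ A1 then X else univ),
              ∑ ψ ∈ Fintype.piFinset (fun b => if b ∈ B1 then Y else univ),
                ∏ e ∈ E, K (φ e.1) (ψ e.2) =
              (#(Fintype.piFinset fun b => if b ∈ B1 then Y else univ) : ℝ) * κ ^ #E := by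
            intro φ hφ
            have h2 : ∀ ψ ∈ Fintype.piFinset (fun b => if b ∈ B1 then Y else univ),
                ∏ e ∈ E, K (φ e.1) (ψ e.2) = κ ^ #E := by
              intro ψ hψ
              rw [prod_congr rfl (g := fun _ => κ), prod_const]
              intro e he
              rw [Fintype.mem_piFinset] at hφ hψ
              have h3 := hφ e.1
              have h4 := hψ e.2
              have m1 : e.1 ∈ A1 := by rw [hA1]; exact mem_image_of_mem _ he
              have m2 : e.2 ∈ B1 := by rw [hB1]; exact mem_image_of_mem _ he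
              rw [if_pos m1] at h3
              rw [if_pos m2] at h4
              exact hκ _ h3 _ h4
            rw [sum_congr rfl h2, sum_const, nsmul_eq_mul]
          rw [sum_congr rfl h1, sum_const, nsmul_eq_mul]
          ring
      _ ≤ ∑ φ : A → (Fin k → I), ∑ ψ : B → (Fin k → J), ∏ e ∈ E, K (φ e.1) (ψ e.2) := by
          refine (sum_le_sum fun φ _ => sum_le_sum_of_subset_of_nonneg (subset_univ _)
            fun ψ _ _ => prod_nonneg fun e _ => h0 _ _).trans ?_
          exact sum_le_sum_of_subset_of_nonneg (subset_univ _)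
            fun φ _ _ => sum_nonneg fun ψ _ => prod_nonneg fun e _ => h0 _ _
  -- conclusion
  have hXc : (#X : ℝ) ≤ (Fintype.card I : ℝ) ^ k := by
    have := card_le_univ X
    rw [Fintype.card_fun, Fintype.card_fin] at this
    exact_mod_cast this
  have hYc : (#Y : ℝ) ≤ (Fintype.card J : ℝ) ^ k := by
    have := card_le_univ Y
    rw [Fintype.card_fun, Fintype.card_fin] at this
    exact_mod_cast this
  have e1 := pow_aux (Nat.cast_nonneg #X) hXc hA1c hA1a
  have e2 := pow_aux (Nat.cast_nonneg #Y) hYc hB1c hB1b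
  rw [hStu] at hle
  have e3 := pow_le_pow_left₀ hSnn hle #E
  have e4 := mul_le_mul e1 e2 (by positivity) (by positivity)
  calc (∑ x : Fin k → I, ∑ y : Fin k → J, K x y) ^ #E *
        (((Fintype.card I : ℝ) ^ k) ^ Fintype.card A * ((Fintype.card J : ℝ) ^ k) ^ Fintype.card B)
      ≤ (((k : ℝ) + 1) ^ (Fintype.card I + Fintype.card J) * (#X * #Y * κ)) ^ #E *
        (((Fintype.card I : ℝ) ^ k) ^ Fintype.card A *
          ((Fintype.card J : ℝ) ^ k) ^ Fintype.card B) :=
        mul_le_mul_of_nonneg_right e3 (by positivity)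
    _ = ((((k : ℝ) + 1) ^ (Fintype.card I + Fintype.card J)) ^ #E * κ ^ #E) *
        (((#X : ℝ) ^ #E * ((Fintype.card I : ℝ) ^ k) ^ Fintype.card A) *
          ((#Y : ℝ) ^ #E * ((Fintype.card J : ℝ) ^ k) ^ Fintype.card B)) := by
        rw [mul_pow, mul_pow, mul_pow]
        ring
    _ ≤ ((((k : ℝ) + 1) ^ (Fintype.card I + Fintype.card J)) ^ #E * κ ^ #E) *
        ((((Fintype.card I : ℝ) ^ k) ^ #E * ((#X : ℝ) ^ #A1 *
            ((Fintype.card I : ℝ) ^ k) ^ (Fintype.card A - #A1))) *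
          (((Fintype.card J : ℝ) ^ k) ^ #E * ((#Y : ℝ) ^ #B1 *
            ((Fintype.card J : ℝ) ^ k) ^ (Fintype.card B - #B1)))) :=
        mul_le_mul_of_nonneg_left e4 (by positivity)
    _ = ((((k : ℝ) + 1) ^ (Fintype.card I + Fintype.card J)) *
        ((Fintype.card I : ℝ) ^ k * (Fintype.card J : ℝ) ^ k)) ^ #E *
        (((#X : ℝ) ^ #A1 * ((Fintype.card I : ℝ) ^ k) ^ (Fintype.card A - #A1)) *
          ((#Y : ℝ) ^ #B1 * ((Fintype.card J : ℝ) ^ k) ^ (Fintype.card B - #B1)) * κ ^ #E) := by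
        rw [mul_pow, mul_pow]
        ring
    _ ≤ _ := mul_le_mul_of_nonneg_left hlow (by positivity)

end P050
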