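import Vale.Agent.Lib.P050.Marg
import Vale.Agent.Lib.P050.Corr
import Vale.Agent.Lib.P050.Types

/-!
# P050: the finite Sidorenko inequality for TP2 matrices
-/

namespace P050

open Finset

variable {A B I J : Type*}

theorem homF_eq_marg {k : ℕ} [Fintype A] [Fintype B] [DecidableEq A] [DecidableEq B] [Fintype I]
    [Fintype J] [DecidableEq I] [DecidableEq J] (E : Finset (A × B))
    (L : A × B → (Fin k → I) → (Fin k → J) → ℝ) (e₀ : A × B) (he : e₀ ∈ E) :
    homF E L = ∑ x : Fin k → I, ∑ y : Fin k → J,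
      marg (E.erase e₀) L e₀.1 e₀.2 x y * L e₀ x y := by
  have hpt : ∀ (φ : A → (Fin k → I)) (ψ : B → (Fin k → J)),
      ∏ e ∈ E, L e (φ e.1) (ψ e.2) = ∑ x : Fin k → I, ∑ y : Fin k → J,
        (if φ e₀.1 = x ∧ ψ e₀.2 = y then ∏ e ∈ E.erase e₀, L e (φ e.1) (ψ e.2) else 0) *
          L e₀ x y := by
    intro φ ψ
    rw [Finset.sum_eq_single (φ e₀.1), Finset.sum_eq_single (ψ e₀.2)]
    · rw [if_pos ⟨rfl, rfl⟩, ← Finset.mul_prod_erase E (fun e => L e (φ e.1) (ψ e.2)) he]
      ring
    · intro y _ hy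
      rw [if_neg (fun h => hy h.2.symm), zero_mul]
    · intro h; exact absurd (Finset.mem_univ _) h
    · intro x _ hx
      refine Finset.sum_eq_zero fun y _ => ?_
      rw [if_neg (fun h => hx h.1.symm), zero_mul]
    · intro h; exact absurd (Finset.mem_univ _) h
  unfold homF marg
  simp only [hpt, Finset.sum_mul]
  calc _ = ∑ φ : A → (Fin k → I), ∑ x : Fin k → I, ∑ ψ : B → (Fin k → J), ∑ y : Fin k → J, _ :=
        Finset.sum_congr rfl fun φ _ => Finset.sum_comm
    _ = ∑ x : Fin k → I, ∑ φ : A → (Fin k → I), ∑ ψ : B → (Fin k → J), ∑ y : Fin k → J, _ :=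
        Finset.sum_comm
    _ = ∑ x : Fin k → I, ∑ φ : A → (Fin k → I), ∑ y : Fin k → J, ∑ ψ : B → (Fin k → J), _ :=
        Finset.sum_congr rfl fun x _ => Finset.sum_congr rfl fun φ _ => Finset.sum_comm
    _ = _ := Finset.sum_congr rfl fun x _ => Finset.sum_comm

theorem sym_AI {k : ℕ} {u : I → ℝ} {v : J → ℝ} {L : (Fin k → I) → (Fin k → J) → ℝ}
    (hL : AI u v L) : AI u v (sym L) := by
  refine ⟨?_, ?_, ?_⟩
  · intro x y
    unfold sym
    exact div_nonneg (Finset.sum_nonneg fun σ _ => hL.nonneg _ _) (by positivity)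
  · intro σ x y
    rw [Corr_sym_inv]
    unfold sym
    congr 1
    have h := Corr_sum_comp (fun π : Equiv.Perm (Fin k) => L (x ∘ σ) (y ∘ π)) σ 1
    rw [← h]
    refine Finset.sum_congr rfl fun π _ => ?_
    have := hL.inv σ x (y ∘ π)
    rw [← this]
    congr 1
  · intro i j x y _ _
    rw [Corr_sym_inv]

theorem marg_congr {k : ℕ} [Fintype A] [Fintype B] [DecidableEq A] [DecidableEq B] [Fintype I]
    [Fintype J] [DecidableEq I] [DecidableEq J] (E : Finset (A × B))
    (L L' : A × B → (Fin k → I) → (Fin k → J) → ℝ) (h : ∀ e ∈ E, L e = L' e) (a₀ : A) (b₀ : B)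
    (x : Fin k → I) (y : Fin k → J) : marg E L a₀ b₀ x y = marg E L' a₀ b₀ x y := by
  unfold marg
  refine Finset.sum_congr rfl fun φ _ => Finset.sum_congr rfl fun ψ _ => ?_
  rw [Finset.prod_congr rfl fun e he => by rw [h e he]]

/-- symmetrizing the kernel on every edge decreases the homomorphism count. -/
theorem hom_sym_le {k : ℕ} [Fintype A] [Fintype B] [DecidableEq A] [DecidableEq B] [Fintype I]
    [Fintype J] [DecidableEq I] [DecidableEq J] (u : I → ℝ) (v : J → ℝ) (E : Finset (A × B))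
    (W : (Fin k → I) → (Fin k → J) → ℝ) (hW : AI u v W) :
    homF E (fun _ => sym W) ≤ homF E (fun _ => W) := by
  have key : ∀ F : Finset (A × B), F ⊆ E →
      homF E (fun e => if e ∈ F then sym W else W) ≤ homF E (fun _ => W) := by
    intro F
    induction F using Finset.induction_on with
    | empty => intro _; simp
    | insert e₀ F he ih =>
      intro hF
      have he0 : e₀ ∈ E := hF (Finset.mem_insert_self _ _)
      have hF' : F ⊆ E := fun e h => hF (Finset.mem_insert_of_mem h)
      refine le_trans ?_ (ih hF')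
      rw [homF_eq_marg E _ e₀ he0, homF_eq_marg E (fun e => if e ∈ F then sym W else W) e₀ he0]
      have hAI : ∀ e, AI u v ((fun e => if e ∈ F then sym W else W) e) := by
        intro e
        by_cases h : e ∈ F
        · simp only [h, if_true]; exact sym_AI hW
        · simp only [h, if_false]; exact hW
      have h1 : ∀ x y, marg (E.erase e₀) (fun e => if e ∈ insert e₀ F then sym W else W)
          e₀.1 e₀.2 x y = marg (E.erase e₀) (fun e => if e ∈ F then sym W else W)
          e₀.1 e₀.2 x y := by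
        intro x y
        refine marg_congr _ _ _ (fun e h => ?_) _ _ _ _
        have : e ≠ e₀ := (Finset.mem_erase.mp h).1
        simp [Finset.mem_insert, this]
      have h2 := corr u v _ W (marg_AI u v (E.erase e₀) _ hAI e₀.1 e₀.2) hW
      simp only [h1, Finset.mem_insert_self, if_true, he, if_false]
      exact h2
  have := key E (Finset.Subset.refl E)
  refine le_trans (le_of_eq ?_) this
  unfold homF
  refine Finset.sum_congr rfl fun φ _ => Finset.sum_congr rfl fun ψ _ => ?_
  refine Finset.prod_congr rfl fun e he => ?_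
  simp [he]

theorem tpow_AI (k : ℕ) {u : I → ℝ} {v : J → ℝ} {w : I → J → ℝ} (h0 : ∀ i j, 0 ≤ w i j)
    (hw : TP2 u v w) : AI u v (tpow k w) := by
  refine ⟨?_, ?_, ?_⟩
  · intro x y
    exact Finset.prod_nonneg fun i _ => h0 _ _
  · intro σ x y
    unfold tpow
    exact Equiv.prod_comp σ (fun i => w (x i) (y i))
  · intro i j x y hx hy
    by_cases hij : i = j
    · subst hij; simp
    · unfold tpow
      have hji : j ∈ Finset.univ.erase i := by simp [Ne.symm hij]
      rw [← Finset.mul_prod_erase Finset.univ _ (Finset.mem_univ i),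
        ← Finset.mul_prod_erase (Finset.univ.erase i) _ hji,
        ← Finset.mul_prod_erase Finset.univ (fun l => w (x l) (y l)) (Finset.mem_univ i),
        ← Finset.mul_prod_erase (Finset.univ.erase i) (fun l => w (x l) (y l)) hji]
      have hrest : ∏ l ∈ (Finset.univ.erase i).erase j, w (x l) ((y ∘ Equiv.swap i j) l) =
          ∏ l ∈ (Finset.univ.erase i).erase j, w (x l) (y l) := by
        refine Finset.prod_congr rfl fun l hl => ?_
        rw [Finset.mem_erase, Finset.mem_erase] at hl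
        rw [Function.comp_apply, Equiv.swap_apply_of_ne_of_ne hl.2.1 hl.1]
      rw [hrest, ← mul_assoc, ← mul_assoc]
      refine mul_le_mul_of_nonneg_right ?_ (Finset.prod_nonneg fun l _ => h0 _ _)
      simp only [Function.comp_apply, Equiv.swap_apply_left, Equiv.swap_apply_right]
      exact hw _ _ _ _ hx hy

theorem sum_tpow (k : ℕ) [Fintype I] [Fintype J] (w : I → J → ℝ) :
    ∑ x : Fin k → I, ∑ y : Fin k → J, tpow k w x y = (∑ i, ∑ j, w i j) ^ k := by
  classical
  have h1 : (∑ i, ∑ j, w i j) ^ k = ∏ _l : Fin k, ∑ p : I × J, w p.1 p.2 := by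
    rw [Finset.prod_const, Finset.card_univ, Fintype.card_fin, Fintype.sum_prod_type]
  rw [h1, Finset.prod_univ_sum, Fintype.piFinset_univ, ← Fintype.sum_prod_type']
  symm
  refine Fintype.sum_equiv (Equiv.arrowProdEquivProdArrow (Fin k) (fun _ => I) (fun _ => J)) _ _
    fun f => ?_
  rfl

theorem homF_tpow (k : ℕ) [Fintype A] [Fintype B] [DecidableEq A] [DecidableEq B] [Fintype I]
    [Fintype J] (E : Finset (A × B)) (w : I → J → ℝ) :
    homF E (fun _ => tpow k w) = (homF E (fun _ => w)) ^ k := by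
  have h := sum_tpow k (fun (φ : A → I) (ψ : B → J) => ∏ e ∈ E, w (φ e.1) (ψ e.2))
  unfold homF
  rw [← h]
  refine Fintype.sum_equiv (Equiv.piComm (fun _ _ => I)) _ _ fun φ => ?_
  refine Fintype.sum_equiv (Equiv.piComm (fun _ _ => J)) _ _ fun ψ => ?_
  unfold tpow
  rw [Finset.prod_comm]
  rfl

theorem sum_sym {k : ℕ} [Fintype I] [Fintype J] (L : (Fin k → I) → (Fin k → J) → ℝ) :
    ∑ x : Fin k → I, ∑ y : Fin k → J, sym L x y =
      ∑ x : Fin k → I, ∑ y : Fin k → J, L x y := by
  refine Finset.sum_congr rfl fun x _ => ?_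
  unfold sym
  rw [← Finset.sum_div, Finset.sum_comm,
    Finset.sum_congr rfl fun σ _ => Corr_string (fun y => L x y) σ, Finset.sum_const,
    nsmul_eq_mul, Finset.card_univ, Fintype.card_perm, Fintype.card_fin]
  have : (k.factorial : ℝ) ≠ 0 := by exact_mod_cast k.factorial_ne_zero
  field_simp

theorem root_le (X Y : ℝ) (hY : 0 ≤ Y) (C : ℕ)
    (h : ∀ k : ℕ, X ^ k ≤ ((k : ℝ) + 1) ^ C * Y ^ k) : X ≤ Y := by
  by_contra hlt
  rw [not_le] at hlt
  rcases hY.eq_or_lt with hY0 | hY0
  · have := h 1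
    rw [← hY0] at this
    simp at this
    linarith
  · set r := X / Y with hr
    have hr1 : 1 < r := by rw [hr, lt_div_iff₀ hY0]; linarith
    have hr0 : 0 < r := by linarith
    have hk : ∀ k : ℕ, 1 ≤ r * (((k + 1 : ℕ) : ℝ) ^ C / r ^ (k + 1)) := by
      intro k
      have h1 := h k
      have h2 : r ^ k ≤ ((k : ℝ) + 1) ^ C := by
        rw [hr, div_pow, div_le_iff₀ (pow_pos hY0 k)]
        exact h1
      have h3 : r * (((k + 1 : ℕ) : ℝ) ^ C / r ^ (k + 1)) = ((k : ℝ) + 1) ^ C / r ^ k := by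
        rw [pow_succ]
        push_cast
        field_simp
      rw [h3, le_div_iff₀ (pow_pos hr0 k)]
      linarith
    have ht := (tendsto_pow_const_div_const_pow_of_one_lt C hr1).comp
      (Filter.tendsto_add_atTop_nat 1)
    have ht2 := ht.const_mul r
    rw [mul_zero] at ht2
    have hge : (1 : ℝ) ≤ 0 := ge_of_tendsto' ht2 fun k => hk k
    linarith

theorem Finite_pow_aux (K a b H : ℝ) (c m k : ℕ) :
    K ^ (c * m) * ((a * b) ^ m * H) ^ k = (K ^ c * (a ^ k * b ^ k)) ^ m * H ^ k := by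
  rw [mul_pow ((a * b) ^ m) H k, mul_pow (K ^ c) (a ^ k * b ^ k) m, ← mul_pow a b k, ← pow_mul,
    ← pow_mul, ← pow_mul, mul_comm m k]
  ring

/-- **Sidorenko inequality for TP2 matrices** (finite form). -/
theorem finite_sidorenko [Fintype A] [Fintype B] [DecidableEq A] [DecidableEq B] [Fintype I]
    [Fintype J] [DecidableEq I] [DecidableEq J] (u : I → ℝ) (v : J → ℝ) (E : Finset (A × B))
    (w : I → J → ℝ) (h0 : ∀ i j, 0 ≤ w i j) (hw : TP2 u v w) :
    (∑ i, ∑ j, w i j) ^ #E *
        ((Fintype.card I : ℝ) ^ Fintype.card A * (Fintype.card J : ℝ) ^ Fintype.card B) ≤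
      ((Fintype.card I : ℝ) * (Fintype.card J : ℝ)) ^ #E * homF E (fun _ => w) := by
  refine root_le _ _ ?_ ((Fintype.card I + Fintype.card J) * #E) ?_
  · have : 0 ≤ homF E (fun _ => w) := Finset.sum_nonneg fun φ _ => Finset.sum_nonneg fun ψ _ =>
      Finset.prod_nonneg fun e _ => h0 _ _
    positivity
  · intro k
    have hA := tpow_AI k h0 hw
    have h1 := types_bound E (sym (tpow k w)) (sym_AI hA).nonneg (by
      intro σ ρ x y
      rw [Corr_sym_inv]
      have := (sym_AI hA).inv σ x y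
      rw [Corr_sym_inv] at this
      exact this)
    have h2 := hom_sym_le u v E (tpow k w) hA
    rw [homF_tpow] at h2
    rw [sum_sym, sum_tpow] at h1
    have h3 : ((((k : ℝ) + 1) ^ (Fintype.card I + Fintype.card J)) *
        ((Fintype.card I : ℝ) ^ k * (Fintype.card J : ℝ) ^ k)) ^ #E *
        homF E (fun _ => sym (tpow k w)) ≤
        ((((k : ℝ) + 1) ^ (Fintype.card I + Fintype.card J)) *
        ((Fintype.card I : ℝ) ^ k * (Fintype.card J : ℝ) ^ k)) ^ #E *
        (homF E (fun _ => w)) ^ k := by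
      refine mul_le_mul_of_nonneg_left h2 (by positivity)
    have h4 := h1.trans h3
    have e1 : ((∑ i, ∑ j, w i j) ^ #E * ((Fintype.card I : ℝ) ^ Fintype.card A *
        (Fintype.card J : ℝ) ^ Fintype.card B)) ^ k = ((∑ i, ∑ j, w i j) ^ k) ^ #E *
        (((Fintype.card I : ℝ) ^ k) ^ Fintype.card A *
          ((Fintype.card J : ℝ) ^ k) ^ Fintype.card B) := by
      rw [mul_pow, mul_pow, ← pow_mul, ← pow_mul, ← pow_mul, ← pow_mul, ← pow_mul, ← pow_mul,
        mul_comm #E k, mul_comm (Fintype.card A) k, mul_comm (Fintype.card B) k]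
    have e2 : ((k : ℝ) + 1) ^ ((Fintype.card I + Fintype.card J) * #E) *
        (((Fintype.card I : ℝ) * (Fintype.card J : ℝ)) ^ #E * homF E (fun _ => w)) ^ k =
        ((((k : ℝ) + 1) ^ (Fintype.card I + Fintype.card J)) *
        ((Fintype.card I : ℝ) ^ k * (Fintype.card J : ℝ) ^ k)) ^ #E *
        (homF E (fun _ => w)) ^ k := by
      exact Finite_pow_aux _ _ _ _ _ _ _
    rw [e1, e2]
    exact h4

end P050
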