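import Mathlib

/-!
# P050: from the bipartite form to simple graphs and symmetric kernels
-/

namespace P050

open Finset MeasureTheory

/-- homomorphism density of `H` in the symmetric kernel `W` on `[0,1]`. -/
noncomputable def tH {V : Type*} [Fintype V] [DecidableEq V] (H : SimpleGraph V)
    [DecidableRel H.Adj] (W : unitInterval → unitInterval → ℝ) (hs : ∀ x y, W x y = W y x) : ℝ :=
  ∫ x : V → unitInterval, ∏ e ∈ H.edgeFinset,
    Sym2.lift ⟨fun a b => W (x a) (x b), fun a b => hs (x a) (x b)⟩ e

/-- the bijection between the coloured pairs and the edges -/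
private theorem Graph_bij {V : Type*} [Fintype V] [DecidableEq V] (H : SimpleGraph V)
    [DecidableRel H.Adj] (c : V → Prop) [DecidablePred c] (hc : ∀ u v, H.Adj u v → (c u ↔ ¬ c v)) :
    Set.BijOn (fun e : {v // c v} × {v // ¬ c v} => s((e.1 : V), (e.2 : V)))
      ((Finset.univ.filter fun e : {v // c v} × {v // ¬ c v} => H.Adj e.1 e.2 : Finset _) : Set _)
      (H.edgeFinset : Set (Sym2 V)) := by
  refine ⟨?_, ?_, ?_⟩
  · intro e he
    rw [Finset.mem_coe, Finset.mem_filter] at he
    rw [Finset.mem_coe, SimpleGraph.mem_edgeFinset]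
    exact he.2
  · rintro ⟨a, b⟩ _ ⟨a', b'⟩ _ h
    simp only [Sym2.eq_iff] at h
    rcases h with ⟨h1, h2⟩ | ⟨h1, h2⟩
    · rw [Subtype.ext h1, Subtype.ext h2]
    · exact absurd (h1 ▸ a.2) b'.2
  · intro e he
    rw [Finset.mem_coe, SimpleGraph.mem_edgeFinset] at he
    induction e using Sym2.ind with
    | _ u v =>
      have hadj : H.Adj u v := he
      by_cases hu : c u
      · refine ⟨(⟨u, hu⟩, ⟨v, (hc u v hadj).1 hu⟩), ?_, rfl⟩
        rw [Finset.mem_coe, Finset.mem_filter]
        exact ⟨Finset.mem_univ _, hadj⟩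
      · refine ⟨(⟨v, (hc v u hadj.symm).2 hu⟩, ⟨u, hu⟩), ?_, Sym2.eq_swap⟩
        rw [Finset.mem_coe, Finset.mem_filter]
        exact ⟨Finset.mem_univ _, hadj.symm⟩

/-- reduction of the density of a bipartite graph to the bipartite form. -/
theorem tH_eq {V : Type*} [Fintype V] [DecidableEq V] (H : SimpleGraph V)
    [DecidableRel H.Adj] (W : unitInterval → unitInterval → ℝ) (hs : ∀ x y, W x y = W y x)
    (hm : Measurable (Function.uncurry W)) (M : ℝ) (h0 : ∀ x y, 0 ≤ W x y)
    (hM : ∀ x y, W x y ≤ M) (hH : H.Colorable 2) :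
    ∃ (c : V → Prop) (_ : DecidablePred c) (E : Finset ({v // c v} × {v // ¬ c v})),
      #E = #H.edgeFinset ∧
      tH H W hs = ∫ x : {v // c v} → unitInterval, ∫ y : {v // ¬ c v} → unitInterval,
        ∏ e ∈ E, W (x e.1) (y e.2) := by
  obtain ⟨C⟩ := hH
  have hc : ∀ u v, H.Adj u v → (C u = 0 ↔ ¬ C v = 0) := by
    intro u v huv
    have h1 : C u ≠ C v := C.valid huv
    constructor
    · intro h2 h3
      exact h1 (h2.trans h3.symm)
    · intro h2
      by_contra h3
      exact h1 (by omega)
  have hbij := Graph_bij H (fun v => C v = 0) hc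
  refine ⟨fun v => C v = 0, inferInstance,
    Finset.univ.filter fun e : {v // C v = 0} × {v // ¬ C v = 0} => H.Adj e.1 e.2, ?_, ?_⟩
  · exact Finset.card_bij (fun e _ => s((e.1 : V), (e.2 : V))) (fun e he => hbij.mapsTo he)
      (fun e he e' he' h => hbij.injOn he he' h) (fun e he => by
        obtain ⟨a, ha, hae⟩ := hbij.surjOn he
        exact ⟨a, ha, hae⟩)
  · set E : Finset ({v // C v = 0} × {v // ¬ C v = 0}) :=
      Finset.univ.filter fun e => H.Adj e.1 e.2 with hE
    set G : ({v // C v = 0} → unitInterval) × ({v // ¬ C v = 0} → unitInterval) → ℝ :=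
      fun p => ∏ e ∈ E, W (p.1 e.1) (p.2 e.2) with hG
    have h1 : ∀ x : V → unitInterval, (∏ e ∈ H.edgeFinset,
        Sym2.lift ⟨fun a b => W (x a) (x b), fun a b => hs (x a) (x b)⟩ e)
        = G (MeasurableEquiv.piEquivPiSubtypeProd (fun _ : V => unitInterval)
          (fun v => C v = 0) x) := by
      intro x
      symm
      exact Finset.prod_bij (fun e _ => s((e.1 : V), (e.2 : V))) (fun e he => hbij.mapsTo he)
        (fun e he e' he' h => hbij.injOn he he' h) (fun e he => by
          obtain ⟨a, ha, hae⟩ := hbij.surjOn he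
          exact ⟨a, ha, hae⟩) (fun e _ => rfl)
    have hGm : Measurable G := by
      refine Finset.measurable_prod _ fun e _ => ?_
      have h2 : Measurable fun p : ({v // C v = 0} → unitInterval) ×
          ({v // ¬ C v = 0} → unitInterval) => (p.1 e.1, p.2 e.2) :=
        ((measurable_pi_apply e.1).comp measurable_fst).prodMk
          ((measurable_pi_apply e.2).comp measurable_snd)
      exact hm.comp h2
    have hGi : Integrable G
        ((volume : Measure ({v // C v = 0} → unitInterval)).prod
          (volume : Measure ({v // ¬ C v = 0} → unitInterval))) := by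
      refine Integrable.of_bound hGm.aestronglyMeasurable (M ^ #E) (Filter.Eventually.of_forall ?_)
      intro p
      have h2 : 0 ≤ G p := Finset.prod_nonneg fun e _ => h0 _ _
      rw [Real.norm_of_nonneg h2, ← Finset.prod_const]
      exact Finset.prod_le_prod (fun e _ => h0 _ _) fun e _ => hM _ _
    have h3 := (volume_preserving_piEquivPiSubtypeProd (fun _ : V => unitInterval)
      (fun v => C v = 0)).integral_comp' G
    unfold tH
    rw [show (fun x : V → unitInterval => ∏ e ∈ H.edgeFinset,
        Sym2.lift ⟨fun a b => W (x a) (x b), fun a b => hs (x a) (x b)⟩ e)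
        = fun x => G (MeasurableEquiv.piEquivPiSubtypeProd (fun _ : V => unitInterval)
          (fun v => C v = 0) x) from funext h1, h3]
    exact integral_prod G hGi

end P050
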