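import Vale.Agent.Lib.P050.Defs

/-!
# P050: convolution kernels with log-concave profile are TP2
-/

namespace P050

theorem tp2_of_logConcave {X Y : Type*} (φ : ℝ → ℝ) (h0 : ∀ t, 0 ≤ φ t)
    (hφ : ∀ a b l : ℝ, 0 ≤ l → l ≤ 1 → φ a ^ (1 - l) * φ b ^ l ≤ φ ((1 - l) * a + l * b))
    (f : X → ℝ) (g : Y → ℝ) : TP2 f g (fun x y => φ (f x - g y)) := by
  intro x x' y y' hx hy
  simp only
  rcases eq_or_lt_of_le (show f x - g y' ≤ f x' - g y by linarith) with h | h
  · have h1 : f x = f x' := by linarith
    have h2 : g y = g y' := by linarith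
    rw [h1, h2]
  · set a := f x - g y' with ha
    set b := f x' - g y with hb
    set l := (g y' - g y) / (b - a) with hl
    have hba : 0 < b - a := by linarith
    have hl0 : 0 ≤ l := div_nonneg (by linarith) hba.le
    have hl1 : l ≤ 1 := by rw [hl, div_le_one hba]; linarith
    have hlm : l * (b - a) = g y' - g y := by rw [hl]; field_simp
    have e1 : f x - g y = (1 - l) * a + l * b := by
      have : (1 - l) * a + l * b = a + l * (b - a) := by ring
      rw [this, hlm]; linarith
    have e2 : f x' - g y' = (1 - (1 - l)) * a + (1 - l) * b := by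
      have : (1 - (1 - l)) * a + (1 - l) * b = b - l * (b - a) := by ring
      rw [this, hlm]; linarith
    have i1 := hφ a b l hl0 hl1
    have i2 := hφ a b (1 - l) (by linarith) (by linarith)
    rw [← e1] at i1
    rw [← e2, sub_sub_cancel] at i2
    have key : φ a * φ b = (φ a ^ (1 - l) * φ b ^ l) * (φ a ^ l * φ b ^ (1 - l)) := by
      have hA : φ a ^ (1 - l) * φ a ^ l = φ a := by
        rcases (h0 a).eq_or_lt with hz | hz
        · rcases eq_or_lt_of_le hl0 with hl' | hl'
          · rw [← hl']; simp
          · rw [← hz, Real.zero_rpow hl'.ne', mul_zero]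
        · rw [← Real.rpow_add hz]; simp
      have hB : φ b ^ l * φ b ^ (1 - l) = φ b := by
        rcases (h0 b).eq_or_lt with hz | hz
        · rcases eq_or_lt_of_le hl0 with hl' | hl'
          · rw [← hl']; simp
          · rw [← hz, Real.zero_rpow hl'.ne', zero_mul]
        · rw [← Real.rpow_add hz]; simp
      calc φ a * φ b = (φ a ^ (1 - l) * φ a ^ l) * (φ b ^ l * φ b ^ (1 - l)) := by rw [hA, hB]
        _ = _ := by ring
    rw [key]
    exact mul_le_mul i1 i2 (mul_nonneg (Real.rpow_nonneg (h0 a) _) (Real.rpow_nonneg (h0 b) _))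
      (h0 _)

end P050
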