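import Vale.Agent.Lib.P050.Kernel
import Vale.Agent.Lib.P050.LogConcave

/-!
# P050: bridge lemmas for the graph form and for kernels on arbitrary probability spaces
-/

namespace P050

open Finset MeasureTheory

/-- the bijection between the coloured pairs and the edges -/
theorem Hosts_bij {V : Type*} [Fintype V] [DecidableEq V] (H : SimpleGraph V)
    [DecidableRel H.Adj] (c : V → Prop) [DecidablePred c] (hc : ∀ u v, H.Adj u v → (c u ↔ ¬ c v)) :
    Set.BijOn (fun e : {v // c v} × {v // ¬ c v} => s((e.1 : V), (e.2 : V)))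
      ((Finset.univ.filter fun e : {v // c v} × {v // ¬ c v} => H.Adj e.1 e.2 : Finset _) : Set _)
      (H.edgeFinset : Set (Sym2 V)) := by
  refine ⟨?_, ?_, ?_⟩
  · intro e he
    rw [Finset.mem_coe, Finset.mem_filter] at he
    rw [Finset.mem_coe, SimpleGraph.mem_edgeFinset]
    exact he.2
  · rintro ⟨a, b⟩ _ ⟨a', b'⟩ _ h
    simp only [Sym2.eq_iff] at h
    rcases h with ⟨h1, h2⟩ | ⟨h1, h2⟩
    · rw [Subtype.ext h1, Subtype.ext h2]
    · exact absurd (h1 ▸ a.2) b'.2
  · intro e he
    rw [Finset.mem_coe, SimpleGraph.mem_edgeFinset] at he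
    induction e using Sym2.ind with
    | _ u v =>
      have hadj : H.Adj u v := he
      by_cases hu : c u
      · refine ⟨(⟨u, hu⟩, ⟨v, (hc u v hadj).1 hu⟩), ?_, rfl⟩
        rw [Finset.mem_coe, Finset.mem_filter]
        exact ⟨Finset.mem_univ _, hadj⟩
      · refine ⟨(⟨v, (hc v u hadj.symm).2 hu⟩, ⟨u, hu⟩), ?_, Sym2.eq_swap⟩
        rw [Finset.mem_coe, Finset.mem_filter]
        exact ⟨Finset.mem_univ _, hadj.symm⟩

theorem Hosts_colour {V : Type*} (H : SimpleGraph V) (hH : H.Colorable 2) :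
    ∃ (c : V → Prop) (_ : DecidablePred c), ∀ u v, H.Adj u v → (c u ↔ ¬ c v) := by
  obtain ⟨C⟩ := hH
  refine ⟨fun v => C v = 0, inferInstance, ?_⟩
  intro u v huv
  have h1 : C u ≠ C v := C.valid huv
  constructor
  · intro h2 h3
    exact h1 (h2.trans h3.symm)
  · intro h2
    by_contra h3
    exact h1 (by omega)

/-- the number of homomorphisms as a weighted count. -/
theorem Hosts_card_hom {V X : Type*} [Fintype V] [DecidableEq V] [Fintype X]
    (H : SimpleGraph V) [DecidableRel H.Adj] (G : SimpleGraph X) [DecidableRel G.Adj]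
    (c : V → Prop) [DecidablePred c] (hc : ∀ u v, H.Adj u v → (c u ↔ ¬ c v)) :
    homF (Finset.univ.filter fun e : {v // c v} × {v // ¬ c v} => H.Adj e.1 e.2)
      (fun _ x y => if G.Adj x y then (1 : ℝ) else 0) = (Nat.card (H →g G) : ℝ) := by
  classical
  have hE : Nat.card (H →g G) =
      Fintype.card {f : V → X // ∀ u v, H.Adj u v → G.Adj (f u) (f v)} := by
    rw [← Nat.card_eq_fintype_card]
    exact Nat.card_congr ⟨fun f => ⟨f, fun u v h => f.map_rel h⟩,
      fun f => ⟨f.1, fun {u v} h => f.2 u v h⟩, fun f => rfl, fun f => rfl⟩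
  rw [hE, Fintype.card_subtype]
  unfold homF
  rw [← Fintype.sum_prod_type', ← Finset.sum_boole]
  symm
  refine Fintype.sum_equiv (Equiv.piEquivPiSubtypeProd c (fun _ : V => X)) _ _ fun f => ?_
  have key : (∀ u v, H.Adj u v → G.Adj (f u) (f v)) ↔
      ∀ e ∈ Finset.univ.filter fun e : {v // c v} × {v // ¬ c v} => H.Adj e.1 e.2,
        G.Adj (f e.1) (f e.2) := by
    constructor
    · intro h e he
      rw [Finset.mem_filter] at he
      exact h _ _ he.2
    · intro h u v huv
      by_cases hu : c u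
      · exact h (⟨u, hu⟩, ⟨v, (hc u v huv).1 hu⟩) (by
          rw [Finset.mem_filter]; exact ⟨Finset.mem_univ _, huv⟩)
      · exact (h (⟨v, (hc v u huv.symm).2 hu⟩, ⟨u, hu⟩) (by
          rw [Finset.mem_filter]; exact ⟨Finset.mem_univ _, huv.symm⟩)).symm
  by_cases h : ∀ u v, H.Adj u v → G.Adj (f u) (f v)
  · rw [if_pos h]
    symm
    exact Finset.prod_eq_one fun e he => if_pos (key.1 h e he)
  · rw [if_neg h]
    symm
    have h' := mt key.2 h
    simp only [not_forall] at h'
    obtain ⟨e, he, hne⟩ := h'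
    exact Finset.prod_eq_zero he (if_neg hne)

/-- Sidorenko inequality for a finite graph with a TP2 adjacency matrix, in the form with counts. -/
theorem Hosts_graph {V X : Type*} [Fintype V] [DecidableEq V] [Finite X] [Nonempty X]
    (H : SimpleGraph V) [DecidableRel H.Adj] (hH : H.Colorable 2) (G : SimpleGraph X)
    (u v : X → ℝ) (huv : ∀ x x' y y', u x ≤ u x' → v y ≤ v y' → G.Adj x y' → G.Adj x' y →
      G.Adj x y ∧ G.Adj x' y') :
    (2 * (Nat.card G.edgeSet : ℝ) / (Nat.card X : ℝ) ^ 2) ^ #H.edgeFinset ≤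
      (Nat.card (H →g G) : ℝ) / (Nat.card X : ℝ) ^ Fintype.card V := by
  classical
  have : Fintype X := Fintype.ofFinite X
  obtain ⟨c, _, hc⟩ := Hosts_colour H hH
  set E : Finset ({v // c v} × {v // ¬ c v}) := Finset.univ.filter fun e => H.Adj e.1 e.2 with hE
  have hcard : #E = #H.edgeFinset :=
    Finset.card_bij (fun e _ => s((e.1 : V), (e.2 : V)))
      (fun e he => (Hosts_bij H c hc).mapsTo he)
      (fun e he e' he' h => (Hosts_bij H c hc).injOn he he' h) (fun e he => by
        obtain ⟨a, ha, hae⟩ := (Hosts_bij H c hc).surjOn he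
        exact ⟨a, ha, hae⟩)
  have h := finite_sidorenko u v E (fun x y => if G.Adj x y then (1 : ℝ) else 0)
    (fun x y => by positivity) (by
      intro x x' y y' hx hy
      by_cases h1 : G.Adj x y'
      · by_cases h2 : G.Adj x' y
        · obtain ⟨h3, h4⟩ := huv x x' y y' hx hy h1 h2
          simp [h1, h2, h3, h4]
        · simp only [h2, if_false, mul_zero]; positivity
      · simp only [h1, if_false, zero_mul]; positivity)
  rw [Hosts_card_hom H G c hc, hcard] at h
  have hsum : ∑ x : X, ∑ y : X, (if G.Adj x y then (1 : ℝ) else 0) =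
      2 * (Nat.card G.edgeSet : ℝ) := by
    have h1 := G.sum_degrees_eq_twice_card_edges
    have h2 : (Nat.card G.edgeSet : ℝ) = (#G.edgeFinset : ℝ) := by
      rw [Nat.card_eq_fintype_card, ← SimpleGraph.edgeFinset_card]
    rw [h2]
    have h3 : ∀ x : X, ∑ y : X, (if G.Adj x y then (1 : ℝ) else 0) = (G.degree x : ℝ) := by
      intro x
      rw [Finset.sum_boole, SimpleGraph.degree, SimpleGraph.neighborFinset_eq_filter]
    rw [Finset.sum_congr rfl fun x _ => h3 x]
    exact_mod_cast h1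
  rw [hsum] at h
  have hV : Fintype.card {v // c v} + Fintype.card {v // ¬ c v} = Fintype.card V := by
    rw [← Fintype.card_sum]; exact Fintype.card_congr (Equiv.sumCompl c)
  rw [← pow_add, hV] at h
  have hn : (0 : ℝ) < (Fintype.card X : ℝ) := by
    have := Fintype.card_pos (α := X)
    exact_mod_cast this
  rw [Nat.card_eq_fintype_card (α := X), div_pow, div_le_div_iff₀ (by positivity) (by positivity)]
  calc _ ≤ _ := h
    _ = _ := by rw [← sq]; ring

/-- the homomorphism density in a symmetric kernel, over an arbitrary probability space. -/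
theorem Hosts_density {V Ω : Type*} [Fintype V] [DecidableEq V] [MeasurableSpace Ω]
    (μ : Measure Ω) [IsProbabilityMeasure μ] (H : SimpleGraph V)
    [DecidableRel H.Adj] (W : Ω → Ω → ℝ) (hs : ∀ x y, W x y = W y x)
    (hm : Measurable (Function.uncurry W)) (M : ℝ) (h0 : ∀ x y, 0 ≤ W x y)
    (hM : ∀ x y, W x y ≤ M) (hH : H.Colorable 2) :
    ∃ (c : V → Prop) (_ : DecidablePred c) (E : Finset ({v // c v} × {v // ¬ c v})),
      #E = #H.edgeFinset ∧
      ∫ x : V → Ω, ∏ e ∈ H.edgeFinset, W (x (Quot.out e).1) (x (Quot.out e).2)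
          ∂(Measure.pi fun _ => μ) =
        ∫ x : {v // c v} → Ω, ∫ y : {v // ¬ c v} → Ω,
          ∏ e ∈ E, W (x e.1) (y e.2) ∂(Measure.pi fun _ => μ) ∂(Measure.pi fun _ => μ) := by
  obtain ⟨c, _, hc⟩ := Hosts_colour H hH
  have hbij := Hosts_bij H c hc
  refine ⟨c, inferInstance,
    Finset.univ.filter fun e : {v // c v} × {v // ¬ c v} => H.Adj e.1 e.2, ?_, ?_⟩
  · exact Finset.card_bij (fun e _ => s((e.1 : V), (e.2 : V))) (fun e he => hbij.mapsTo he)
      (fun e he e' he' h => hbij.injOn he he' h) (fun e he => by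
        obtain ⟨a, ha, hae⟩ := hbij.surjOn he
        exact ⟨a, ha, hae⟩)
  · set E : Finset ({v // c v} × {v // ¬ c v}) :=
      Finset.univ.filter fun e => H.Adj e.1 e.2 with hE
    set G : ({v // c v} → Ω) × ({v // ¬ c v} → Ω) → ℝ :=
      fun p => ∏ e ∈ E, W (p.1 e.1) (p.2 e.2) with hG
    have hout : ∀ (x : V → Ω) (a b : V),
        W (x a) (x b) = W (x (Quot.out s(a, b)).1) (x (Quot.out s(a, b)).2) := by
      intro x a b
      have h : s((Quot.out s(a, b)).1, (Quot.out s(a, b)).2) = s(a, b) := Quot.out_eq s(a, b)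
      rw [Sym2.eq_iff] at h
      rcases h with ⟨h1, h2⟩ | ⟨h1, h2⟩
      · rw [h1, h2]
      · rw [h1, h2, hs]
    have h1 : ∀ x : V → Ω,
        (∏ e ∈ H.edgeFinset, W (x (Quot.out e).1) (x (Quot.out e).2))
        = G (MeasurableEquiv.piEquivPiSubtypeProd (fun _ : V => Ω) c x) := by
      intro x
      symm
      exact Finset.prod_bij (fun e _ => s((e.1 : V), (e.2 : V))) (fun e he => hbij.mapsTo he)
        (fun e he e' he' h => hbij.injOn he he' h) (fun e he => by
          obtain ⟨a, ha, hae⟩ := hbij.surjOn he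
          exact ⟨a, ha, hae⟩) (fun e _ => hout x e.1 e.2)
    have hGm : Measurable G := by
      refine Finset.measurable_prod _ fun e _ => ?_
      have h2 : Measurable fun p : ({v // c v} → Ω) × ({v // ¬ c v} → Ω) =>
          (p.1 e.1, p.2 e.2) :=
        ((measurable_pi_apply e.1).comp measurable_fst).prodMk
          ((measurable_pi_apply e.2).comp measurable_snd)
      exact hm.comp h2
    have hGi : Integrable G
        ((Measure.pi fun _ : {v // c v} => μ).prod (Measure.pi fun _ : {v // ¬ c v} => μ)) := by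
      refine Integrable.of_bound hGm.aestronglyMeasurable (M ^ #E) (Filter.Eventually.of_forall ?_)
      intro p
      have h2 : 0 ≤ G p := Finset.prod_nonneg fun e _ => h0 _ _
      rw [Real.norm_of_nonneg h2, ← Finset.prod_const]
      exact Finset.prod_le_prod (fun e _ => h0 _ _) fun e _ => hM _ _
    have h3 := (measurePreserving_piEquivPiSubtypeProd (fun _ : V => μ) c).integral_comp' G
    rw [show (fun x : V → Ω => ∏ e ∈ H.edgeFinset, W (x (Quot.out e).1) (x (Quot.out e).2))
        = fun x => G (MeasurableEquiv.piEquivPiSubtypeProd (fun _ : V => Ω) c x)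
        from funext h1, h3]
    exact integral_prod G hGi

/-- log-concavity in Mathlib's language gives the usual inequality. -/
theorem Hosts_logConcave (φ : ℝ → ℝ) (h0 : ∀ t, 0 ≤ φ t)
    (hφ : ConcaveOn ℝ (Function.support φ) fun t => Real.log (φ t)) (a b l : ℝ) (hl0 : 0 ≤ l)
    (hl1 : l ≤ 1) : φ a ^ (1 - l) * φ b ^ l ≤ φ ((1 - l) * a + l * b) := by
  rcases hl0.eq_or_lt with h | h
  · rw [← h]; simp
  rcases hl1.eq_or_lt with h' | h'
  · rw [h']; simp
  rcases (h0 a).eq_or_lt with ha | ha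
  · rw [← ha, Real.zero_rpow (by linarith), zero_mul]; exact h0 _
  rcases (h0 b).eq_or_lt with hb | hb
  · rw [← hb, Real.zero_rpow h.ne', mul_zero]; exact h0 _
  have hl2 : 0 ≤ 1 - l := by linarith
  have hl3 : 1 - l + l = 1 := by ring
  have h1 : (1 - l) • a + l • b ∈ Function.support φ :=
    hφ.1 (show a ∈ Function.support φ from ha.ne') (show b ∈ Function.support φ from hb.ne')
      hl2 hl0 hl3
  have h2 := hφ.2 (show a ∈ Function.support φ from ha.ne')
    (show b ∈ Function.support φ from hb.ne') hl2 hl0 hl3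
  simp only [smul_eq_mul, Function.mem_support] at h1 h2
  have h3 : 0 < φ ((1 - l) * a + l * b) := lt_of_le_of_ne (h0 _) (Ne.symm h1)
  rw [Real.rpow_def_of_pos ha, Real.rpow_def_of_pos hb, ← Real.exp_add, ← Real.le_log_iff_exp_le h3]
  linarith

/-- bipartite permutation graphs have a TP2 adjacency matrix. -/
theorem Hosts_permutation {X : Type*} (G : SimpleGraph X) (hG : G.Colorable 2) (s t : X → ℝ)
    (hs : Function.Injective s)
    (hst : ∀ x y, G.Adj x y ↔ (s x < s y ∧ t y < t x) ∨ (s y < s x ∧ t x < t y))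
    (M : ℝ) (hM : ∀ x, |s x| < M) :
    ∃ u v : X → ℝ, ∀ x x' y y', u x ≤ u x' → v y ≤ v y' → G.Adj x y' → G.Adj x' y →
      G.Adj x y ∧ G.Adj x' y' := by
  classical
  obtain ⟨c, _, hc⟩ := Hosts_colour G hG
  have htri : ∀ x y z, s x < s y → t y < t x → s y < s z → t z < t y → False := by
    intro x y z h1 h2 h3 h4
    have a1 := hc x y ((hst x y).2 (Or.inl ⟨h1, h2⟩))
    have a2 := hc y z ((hst y z).2 (Or.inl ⟨h3, h4⟩))
    have a3 := hc x z ((hst x z).2 (Or.inl ⟨h1.trans h3, h4.trans h2⟩))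
    tauto
  -- sources and sinks
  have hs' : ∀ x x', s x ≤ s x' → x ≠ x' → s x < s x' := fun x x' h hne =>
    lt_of_le_of_ne h fun h' => hne (hs h')
  refine ⟨fun x => if ∃ z, s x < s z ∧ t z < t x then s x else 2 * M + s x,
    fun y => if ∃ z, s z < s y ∧ t y < t z then s y else 2 * M + s y, ?_⟩
  intro x x' y y' hx hy h1 h2
  simp only at hx hy
  have hPQ : ∀ x, (∃ z, s x < s z ∧ t z < t x) → ¬ ∃ z, s z < s x ∧ t x < t z := by
    rintro x ⟨w, hw1, hw2⟩ ⟨z, hz1, hz2⟩
    exact htri z x w hz1 hz2 hw1 hw2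
  rcases (hst x y').1 h1 with ⟨a1, a2⟩ | ⟨a1, a2⟩
  · have px : ∃ z, s x < s z ∧ t z < t x := ⟨y', a1, a2⟩
    have qy' : ∃ z, s z < s y' ∧ t y' < t z := ⟨x, a1, a2⟩
    rcases (hst x' y).1 h2 with ⟨b1, b2⟩ | ⟨b1, b2⟩
    · have px' : ∃ z, s x' < s z ∧ t z < t x' := ⟨y, b1, b2⟩
      have qy : ∃ z, s z < s y ∧ t y < t z := ⟨x', b1, b2⟩
      rw [if_pos px, if_pos px'] at hx
      rw [if_pos qy, if_pos qy'] at hy
      constructor
      · refine (hst x y).2 (Or.inl ⟨lt_of_le_of_lt hx b1, ?_⟩)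
        by_cases hyy : y = y'
        · rw [hyy]; exact a2
        · refine lt_of_le_of_lt ?_ a2
          by_contra hlt
          exact htri x' y y' b1 b2 (hs' _ _ hy hyy) (not_le.1 hlt)
      · refine (hst x' y').2 (Or.inl ⟨lt_of_lt_of_le b1 hy, ?_⟩)
        by_cases hxx : x = x'
        · rw [← hxx]; exact a2
        · refine lt_of_lt_of_le a2 ?_
          by_contra hlt
          exact htri x x' y (hs' _ _ hx hxx) (not_le.1 hlt) b1 b2
    · exfalso
      have py : ∃ z, s y < s z ∧ t z < t y := ⟨x', b1, b2⟩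
      rw [if_neg (hPQ y py), if_pos qy'] at hy
      have m1 := abs_lt.1 (hM y)
      have m2 := abs_lt.1 (hM y')
      linarith [m1.1, m2.2]
  · have py' : ∃ z, s y' < s z ∧ t z < t y' := ⟨x, a1, a2⟩
    have qx : ∃ z, s z < s x ∧ t x < t z := ⟨y', a1, a2⟩
    have npx : ¬ ∃ z, s x < s z ∧ t z < t x := fun h => hPQ x h qx
    rcases (hst x' y).1 h2 with ⟨b1, b2⟩ | ⟨b1, b2⟩
    · exfalso
      have px' : ∃ z, s x' < s z ∧ t z < t x' := ⟨y, b1, b2⟩
      rw [if_neg npx, if_pos px'] at hx
      have m1 := abs_lt.1 (hM x)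
      have m2 := abs_lt.1 (hM x')
      linarith [m1.1, m2.2]
    · have py : ∃ z, s y < s z ∧ t z < t y := ⟨x', b1, b2⟩
      have qx' : ∃ z, s z < s x' ∧ t x' < t z := ⟨y, b1, b2⟩
      have npx' : ¬ ∃ z, s x' < s z ∧ t z < t x' := fun h => hPQ x' h qx'
      rw [if_neg npx, if_neg npx'] at hx
      rw [if_neg (hPQ y py), if_neg (hPQ y' py')] at hy
      have hx1 : s x ≤ s x' := by linarith
      have hy1 : s y ≤ s y' := by linarith
      constructor
      · refine (hst x y).2 (Or.inr ⟨lt_of_le_of_lt hy1 a1, ?_⟩)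
        by_cases hxx : x = x'
        · rw [hxx]; exact b2
        · refine lt_of_le_of_lt ?_ b2
          by_contra hlt
          exact htri y' x x' a1 a2 (hs' _ _ hx1 hxx) (not_le.1 hlt)
      · refine (hst x' y').2 (Or.inr ⟨lt_of_lt_of_le a1 hx1, ?_⟩)
        by_cases hyy : y = y'
        · rw [← hyy]; exact b2
        · refine lt_of_lt_of_le b2 ?_
          by_contra hlt
          exact htri y y' x (hs' _ _ hy1 hyy) (not_le.1 hlt) a1 a2

/-- real keys for finitely many points of a linear order. -/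
theorem Hosts_keys {X : Type*} [LinearOrder X] {N : ℕ} (x : Fin N → X) :
    ∃ u : Fin N → ℝ, ∀ i i', u i ≤ u i' → x i ≤ x i' := by
  refine ⟨fun i => ((Finset.univ.filter fun j => x j < x i).card : ℝ), ?_⟩
  intro i i' h
  by_contra hlt
  rw [not_le] at hlt
  have h1 : (Finset.univ.filter fun j => x j < x i') ⊂ Finset.univ.filter fun j => x j < x i := by
    rw [Finset.ssubset_iff_of_subset]
    · exact ⟨i', by simp [hlt], by simp⟩
    · intro j hj
      rw [Finset.mem_filter] at hj ⊢
      exact ⟨hj.1, hj.2.trans hlt⟩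
  have h2 := Finset.card_lt_card h1
  have h3 : ((Finset.univ.filter fun j => x j < x i').card : ℝ) <
      ((Finset.univ.filter fun j => x j < x i).card : ℝ) := by exact_mod_cast h2
  linarith

/-- Sidorenko inequality, bipartite form, when all sample matrices are TP2 orderable. -/
theorem Hosts_kernel {A B Ω Ω' : Type*} [Fintype A] [Fintype B] [DecidableEq A]
    [DecidableEq B] [MeasurableSpace Ω] [MeasurableSpace Ω'] (μ : Measure Ω)
    [IsProbabilityMeasure μ] (ν : Measure Ω') [IsProbabilityMeasure ν] (W : Ω → Ω' → ℝ)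
    (hm : Measurable (Function.uncurry W)) (h0 : ∀ x y, 0 ≤ W x y) (M : ℝ)
    (hM : ∀ x y, W x y ≤ M)
    (hW : ∀ (N : ℕ) (x : Fin N → Ω) (y : Fin N → Ω'),
      ∃ u v : Fin N → ℝ, TP2 u v fun i j => W (x i) (y j)) (E : Finset (A × B)) :
    (∫ x, ∫ y, W x y ∂ν ∂μ) ^ #E ≤
      ∫ x : A → Ω, ∫ y : B → Ω', ∏ e ∈ E, W (x e.1) (y e.2) ∂(Measure.pi fun _ => ν)
        ∂(Measure.pi fun _ => μ) := by
  refine sample μ ν W hm h0 M hM E ?_
  intro N _ x y
  obtain ⟨u, v, huv⟩ := hW N x y
  have h := finite_sidorenko (A := A) (B := B) u v E (fun i j => W (x i) (y j))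
    (fun i j => h0 _ _) huv
  simpa only [Fintype.card_fin, homF] using h

theorem Hosts_sample {X Y : Type*} (W : X → Y → ℝ) (u : X → ℝ) (v : Y → ℝ) (h : TP2 u v W)
    (N : ℕ) (x : Fin N → X) (y : Fin N → Y) :
    ∃ u v : Fin N → ℝ, TP2 u v fun i j => W (x i) (y j) :=
  ⟨fun i => u (x i), fun j => v (y j), fun _ _ _ _ hi hj => h _ _ _ _ hi hj⟩

end P050
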