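import Mathlib

/-!
# P050: from finite samples to measurable kernels
-/

namespace P050

open Finset MeasureTheory

private theorem sam_mp {A ι Ω : Type*} [Fintype A] [Fintype ι] [MeasurableSpace Ω]
    (μ : Measure Ω) [IsProbabilityMeasure μ] (φ : A → ι) (hφ : Function.Injective φ) :
    MeasurePreserving (fun (x : ι → Ω) (a : A) => x (φ a)) (Measure.pi fun _ => μ)
      (Measure.pi fun _ => μ) := by
  classical
  have hmeas : Measurable (fun (x : ι → Ω) (a : A) => x (φ a)) :=
    measurable_pi_lambda _ fun a => measurable_pi_apply (φ a)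
  refine ⟨hmeas, ?_⟩
  symm
  refine Measure.pi_eq fun s hs => ?_
  rw [Measure.map_apply hmeas (MeasurableSet.univ_pi hs)]
  have e1 : ((fun (x : ι → Ω) (a : A) => x (φ a)) ⁻¹' Set.pi Set.univ s) =
      Set.pi Set.univ fun i : ι => ⋂ a : A, {ω : Ω | φ a = i → ω ∈ s a} := by
    ext x
    simp only [Set.mem_preimage, Set.mem_pi, Set.mem_univ, true_imp_iff, Set.mem_iInter,
      Set.mem_ofPred_eq]
    constructor
    · rintro h i a rfl
      exact h a
    · intro h a
      exact h (φ a) a rfl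
  rw [e1, Measure.pi_pi]
  symm
  refine Fintype.prod_of_injective φ hφ _ _ ?_ ?_
  · intro i hi
    have : (⋂ a : A, {ω : Ω | φ a = i → ω ∈ s a}) = Set.univ := by
      ext ω
      simp only [Set.mem_iInter, Set.mem_ofPred_eq, Set.mem_univ, iff_true]
      intro a ha
      exact absurd ⟨a, ha⟩ hi
    rw [this, measure_univ]
  · intro a
    congr 1
    ext ω
    simp only [Set.mem_iInter, Set.mem_ofPred_eq]
    constructor
    · intro h b hb
      rw [hφ hb]
      exact h
    · intro h
      exact h a rfl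

private theorem sam_card (A : Type*) [Fintype A] [DecidableEq A] (N : ℕ) :
    ∑ φ : A → Fin N, (if Function.Injective φ then (1 : ℝ) else 0) =
      (N.descFactorial (Fintype.card A) : ℝ) := by
  classical
  rw [Finset.sum_boole]
  congr 1
  rw [← Fintype.card_subtype, Fintype.card_congr (Equiv.subtypeInjectiveEquivEmbedding A (Fin N)),
    Fintype.card_embedding_eq, Fintype.card_fin]

private theorem sam_tendsto (k : ℕ) :
    Filter.Tendsto (fun N : ℕ => (N.descFactorial k : ℝ) / (N : ℝ) ^ k) Filter.atTop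
      (nhds 1) := by
  have h := isEquivalent_descFactorial k
  rw [Asymptotics.isEquivalent_iff_tendsto_one] at h
  · exact h
  · filter_upwards [Filter.eventually_gt_atTop 0] with N hN
    positivity

/-- If all sample matrices of a bounded measurable kernel satisfy the Sidorenko inequality, then so
does the kernel. -/
theorem sample {A B Ω Ω' : Type*} [Fintype A] [Fintype B] [DecidableEq A] [DecidableEq B]
    [MeasurableSpace Ω] [MeasurableSpace Ω'] (μ : Measure Ω) [IsProbabilityMeasure μ]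
    (ν : Measure Ω') [IsProbabilityMeasure ν] (W : Ω → Ω' → ℝ)
    (hm : Measurable (Function.uncurry W)) (h0 : ∀ x y, 0 ≤ W x y) (M : ℝ)
    (hM : ∀ x y, W x y ≤ M) (E : Finset (A × B))
    (hfin : ∀ N : ℕ, 0 < N → ∀ (x : Fin N → Ω) (y : Fin N → Ω'),
      (∑ i, ∑ j, W (x i) (y j)) ^ #E * ((N : ℝ) ^ Fintype.card A * (N : ℝ) ^ Fintype.card B) ≤
        ((N : ℝ) * (N : ℝ)) ^ #E *
          ∑ φ : A → Fin N, ∑ ψ : B → Fin N, ∏ e ∈ E, W (x (φ e.1)) (y (ψ e.2))) :
    (∫ x, ∫ y, W x y ∂ν ∂μ) ^ #E ≤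
      ∫ x : A → Ω, ∫ y : B → Ω', ∏ e ∈ E, W (x e.1) (y e.2) ∂(Measure.pi fun _ => ν)
        ∂(Measure.pi fun _ => μ) := by
  classical
  obtain ⟨ω₀⟩ : Nonempty Ω := nonempty_of_isProbabilityMeasure μ
  obtain ⟨ω₁⟩ : Nonempty Ω' := nonempty_of_isProbabilityMeasure ν
  have hM0 : 0 ≤ M := (h0 ω₀ ω₁).trans (hM ω₀ ω₁)
  set T : ℝ := ∫ x : A → Ω, ∫ y : B → Ω', ∏ e ∈ E, W (x e.1) (y e.2) ∂(Measure.pi fun _ => ν)
        ∂(Measure.pi fun _ => μ) with hT
  set w : ℝ := ∫ x, ∫ y, W x y ∂ν ∂μ with hw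
  have hT0 : 0 ≤ T := integral_nonneg fun x => integral_nonneg fun y =>
    Finset.prod_nonneg fun e _ => h0 _ _
  have hw0 : 0 ≤ w := integral_nonneg fun x => integral_nonneg fun y => h0 _ _
  -- the product integral form of `T` and `w`
  have hGm : Measurable fun z : (A → Ω) × (B → Ω') => ∏ e ∈ E, W (z.1 e.1) (z.2 e.2) := by
    refine Finset.measurable_prod _ fun e _ => ?_
    have hc : Measurable fun z : (A → Ω) × (B → Ω') => ((z.1 e.1, z.2 e.2) : Ω × Ω') :=
      ((measurable_pi_apply e.1).comp measurable_fst).prodMk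
        ((measurable_pi_apply e.2).comp measurable_snd)
    exact hm.comp hc
  have hGb : ∀ z : (A → Ω) × (B → Ω'), ‖∏ e ∈ E, W (z.1 e.1) (z.2 e.2)‖ ≤ M ^ #E := by
    intro z
    rw [Real.norm_of_nonneg (Finset.prod_nonneg fun e _ => h0 _ _)]
    exact (Finset.prod_le_prod (fun e _ => h0 _ _) fun e _ => hM _ _).trans
      (le_of_eq (Finset.prod_const M))
  have hTP : T = ∫ z : (A → Ω) × (B → Ω'), ∏ e ∈ E, W (z.1 e.1) (z.2 e.2)
      ∂((Measure.pi fun _ => μ).prod (Measure.pi fun _ => ν)) := by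
    rw [integral_prod _ (Integrable.of_bound hGm.aestronglyMeasurable (M ^ #E)
      (Filter.Eventually.of_forall hGb))]
  have hwP : w = ∫ z : Ω × Ω', W z.1 z.2 ∂(μ.prod ν) := by
    have hi : Integrable (fun z : Ω × Ω' => W z.1 z.2) (μ.prod ν) :=
      Integrable.of_bound (Measurable.aestronglyMeasurable hm) M
        (Filter.Eventually.of_forall fun z => by
          rw [Real.norm_of_nonneg (h0 _ _)]; exact hM _ _)
    rw [integral_prod _ hi]
  -- the inequality for each `N`
  have key : ∀ N : ℕ, 0 < N → w ^ #E ≤ T + M ^ #E *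
      (1 - (N.descFactorial (Fintype.card A) : ℝ) / (N : ℝ) ^ (Fintype.card A) *
        ((N.descFactorial (Fintype.card B) : ℝ) / (N : ℝ) ^ (Fintype.card B))) := by
    intro N hN
    have hN0 : (0 : ℝ) < N := by exact_mod_cast hN
    set P : Measure ((Fin N → Ω) × (Fin N → Ω')) :=
      (Measure.pi fun _ => μ).prod (Measure.pi fun _ => ν) with hP
    have hWm : ∀ i j, Measurable fun z : (Fin N → Ω) × (Fin N → Ω') => W (z.1 i) (z.2 j) := by
      intro i j
      have hc : Measurable fun z : (Fin N → Ω) × (Fin N → Ω') => ((z.1 i, z.2 j) : Ω × Ω') :=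
        ((measurable_pi_apply i).comp measurable_fst).prodMk
          ((measurable_pi_apply j).comp measurable_snd)
      exact hm.comp hc
    have hpm : ∀ (φ : A → Fin N) (ψ : B → Fin N),
        Measurable fun z : (Fin N → Ω) × (Fin N → Ω') =>
          ∏ e ∈ E, W (z.1 (φ e.1)) (z.2 (ψ e.2)) := fun φ ψ =>
      Finset.measurable_prod _ fun e _ => hWm _ _
    have hpb : ∀ (φ : A → Fin N) (ψ : B → Fin N) (z : (Fin N → Ω) × (Fin N → Ω')),
        ‖∏ e ∈ E, W (z.1 (φ e.1)) (z.2 (ψ e.2))‖ ≤ M ^ #E := by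
      intro φ ψ z
      rw [Real.norm_of_nonneg (Finset.prod_nonneg fun e _ => h0 _ _)]
      exact (Finset.prod_le_prod (fun e _ => h0 _ _) fun e _ => hM _ _).trans
        (le_of_eq (Finset.prod_const M))
    have hpi : ∀ (φ : A → Fin N) (ψ : B → Fin N),
        Integrable (fun z : (Fin N → Ω) × (Fin N → Ω') =>
          ∏ e ∈ E, W (z.1 (φ e.1)) (z.2 (ψ e.2))) P := fun φ ψ =>
      Integrable.of_bound (hpm φ ψ).aestronglyMeasurable (M ^ #E)
        (Filter.Eventually.of_forall (hpb φ ψ))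
    have hWi : ∀ i j, Integrable (fun z : (Fin N → Ω) × (Fin N → Ω') => W (z.1 i) (z.2 j)) P :=
      fun i j => Integrable.of_bound (hWm i j).aestronglyMeasurable M
        (Filter.Eventually.of_forall fun z => by
          rw [Real.norm_of_nonneg (h0 _ _)]; exact hM _ _)
    -- means of the entries
    have hmean : ∀ i j, ∫ z, W (z.1 i) (z.2 j) ∂P = w := by
      intro i j
      have h1 : MeasurePreserving (Prod.map (Function.eval i) (Function.eval j)) P (μ.prod ν) :=
        (measurePreserving_eval (fun _ : Fin N => μ) i).prod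
          (measurePreserving_eval (fun _ : Fin N => ν) j)
      rw [hwP, ← h1.map_eq, integral_map h1.measurable.aemeasurable]
      · rfl
      · rw [h1.map_eq]
        exact hm.aestronglyMeasurable
    -- means of the products, injective case
    have hinj : ∀ (φ : A → Fin N) (ψ : B → Fin N), Function.Injective φ → Function.Injective ψ →
        ∫ z, ∏ e ∈ E, W (z.1 (φ e.1)) (z.2 (ψ e.2)) ∂P = T := by
      intro φ ψ hφ hψ
      have h1 := (sam_mp μ φ hφ).prod (sam_mp ν ψ hψ)
      rw [hTP, ← h1.map_eq, integral_map h1.measurable.aemeasurable]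
      · rfl
      · rw [h1.map_eq]
        exact hGm.aestronglyMeasurable
    have hall : ∀ (φ : A → Fin N) (ψ : B → Fin N),
        ∫ z, ∏ e ∈ E, W (z.1 (φ e.1)) (z.2 (ψ e.2)) ∂P ≤ M ^ #E := by
      intro φ ψ
      have h1 : ∫ z, ∏ e ∈ E, W (z.1 (φ e.1)) (z.2 (ψ e.2)) ∂P ≤ ∫ _, M ^ #E ∂P :=
        integral_mono (hpi φ ψ) (integrable_const _) fun z =>
          (le_abs_self _).trans (hpb φ ψ z)
      simpa using h1
    -- the sum of the entries
    have hSm : Measurable fun z : (Fin N → Ω) × (Fin N → Ω') =>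
        ∑ i, ∑ j, W (z.1 i) (z.2 j) :=
      Finset.measurable_sum _ fun i _ => Finset.measurable_sum _ fun j _ => hWm i j
    have hS0 : ∀ z : (Fin N → Ω) × (Fin N → Ω'), 0 ≤ ∑ i, ∑ j, W (z.1 i) (z.2 j) := fun z =>
      Finset.sum_nonneg fun i _ => Finset.sum_nonneg fun j _ => h0 _ _
    have hSb : ∀ z : (Fin N → Ω) × (Fin N → Ω'),
        ∑ i, ∑ j, W (z.1 i) (z.2 j) ≤ (N : ℝ) * N * M := by
      intro z
      calc ∑ i, ∑ j, W (z.1 i) (z.2 j) ≤ ∑ _i : Fin N, ∑ _j : Fin N, M :=
            Finset.sum_le_sum fun i _ => Finset.sum_le_sum fun j _ => hM _ _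
        _ = (N : ℝ) * N * M := by simp; ring
    have hSi : Integrable (fun z : (Fin N → Ω) × (Fin N → Ω') =>
        ∑ i, ∑ j, W (z.1 i) (z.2 j)) P :=
      integrable_finsetSum _ fun i _ => integrable_finsetSum _ fun j _ => hWi i j
    have hSpi : Integrable (fun z : (Fin N → Ω) × (Fin N → Ω') =>
        (∑ i, ∑ j, W (z.1 i) (z.2 j)) ^ #E) P :=
      Integrable.of_bound (hSm.pow_const _).aestronglyMeasurable (((N : ℝ) * N * M) ^ #E)
        (Filter.Eventually.of_forall fun z => by
          rw [Real.norm_of_nonneg (pow_nonneg (hS0 z) _)]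
          exact pow_le_pow_left₀ (hS0 z) (hSb z) _)
    have hSmean : ∫ z, ∑ i, ∑ j, W (z.1 i) (z.2 j) ∂P = (N : ℝ) * N * w := by
      rw [integral_finsetSum _ fun i _ => integrable_finsetSum _ fun j _ => hWi i j]
      have : ∀ i : Fin N, ∫ z, ∑ j, W (z.1 i) (z.2 j) ∂P = (N : ℝ) * w := by
        intro i
        rw [integral_finsetSum _ fun j _ => hWi i j]
        simp [hmean]
      simp only [this]
      simp
      ring
    have hjen : ((N : ℝ) * N * w) ^ #E ≤ ∫ z, (∑ i, ∑ j, W (z.1 i) (z.2 j)) ^ #E ∂P := by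
      rw [← hSmean]
      exact (convexOn_pow #E).map_integral_le (continuous_pow #E).continuousOn isClosed_Ici
        (Filter.Eventually.of_forall hS0) hSi hSpi
    have hint : (∫ z, (∑ i, ∑ j, W (z.1 i) (z.2 j)) ^ #E ∂P) *
        ((N : ℝ) ^ Fintype.card A * (N : ℝ) ^ Fintype.card B) ≤ ((N : ℝ) * (N : ℝ)) ^ #E *
          ∑ φ : A → Fin N, ∑ ψ : B → Fin N,
            ∫ z, ∏ e ∈ E, W (z.1 (φ e.1)) (z.2 (ψ e.2)) ∂P := by
      have h1 : ∑ φ : A → Fin N, ∑ ψ : B → Fin N,
            ∫ z, ∏ e ∈ E, W (z.1 (φ e.1)) (z.2 (ψ e.2)) ∂P =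
          ∫ z, ∑ φ : A → Fin N, ∑ ψ : B → Fin N, ∏ e ∈ E, W (z.1 (φ e.1)) (z.2 (ψ e.2)) ∂P := by
        rw [integral_finsetSum _ fun φ _ => integrable_finsetSum _ fun ψ _ => hpi φ ψ]
        exact Finset.sum_congr rfl fun φ _ =>
          (integral_finsetSum _ fun ψ _ => hpi φ ψ).symm
      rw [h1, ← integral_mul_const, ← integral_const_mul]
      refine integral_mono (hSpi.mul_const _) ?_ fun z => hfin N hN z.1 z.2
      exact (integrable_finsetSum _ fun φ _ => integrable_finsetSum _ fun ψ _ =>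
        hpi φ ψ).const_mul _
    have hsum : ∑ φ : A → Fin N, ∑ ψ : B → Fin N,
            ∫ z, ∏ e ∈ E, W (z.1 (φ e.1)) (z.2 (ψ e.2)) ∂P ≤
        (N : ℝ) ^ Fintype.card A * (N : ℝ) ^ Fintype.card B * T +
          M ^ #E * ((N : ℝ) ^ Fintype.card A * (N : ℝ) ^ Fintype.card B -
            (N.descFactorial (Fintype.card A) : ℝ) * (N.descFactorial (Fintype.card B) : ℝ)) := by
      have h1 : ∀ (φ : A → Fin N) (ψ : B → Fin N),
          ∫ z, ∏ e ∈ E, W (z.1 (φ e.1)) (z.2 (ψ e.2)) ∂P ≤
            T + M ^ #E * (1 - (if Function.Injective φ then (1 : ℝ) else 0) *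
              (if Function.Injective ψ then (1 : ℝ) else 0)) := by
        intro φ ψ
        by_cases hφ : Function.Injective φ
        · by_cases hψ : Function.Injective ψ
          · simp [hφ, hψ, hinj φ ψ hφ hψ]
          · have := hall φ ψ
            simp only [hφ, hψ, if_true, if_false, mul_zero, sub_zero, mul_one]
            linarith
        · have := hall φ ψ
          simp only [hφ, if_false, zero_mul, sub_zero, mul_one]
          linarith
      calc ∑ φ : A → Fin N, ∑ ψ : B → Fin N,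
            ∫ z, ∏ e ∈ E, W (z.1 (φ e.1)) (z.2 (ψ e.2)) ∂P
          ≤ ∑ φ : A → Fin N, ∑ ψ : B → Fin N,
            (T + M ^ #E * (1 - (if Function.Injective φ then (1 : ℝ) else 0) *
              (if Function.Injective ψ then (1 : ℝ) else 0))) :=
            Finset.sum_le_sum fun φ _ => Finset.sum_le_sum fun ψ _ => h1 φ ψ
        _ = _ := by
            rw [← sam_card A N, ← sam_card B N, Finset.sum_mul_sum]
            simp only [Finset.sum_add_distrib, mul_sub, Finset.sum_sub_distrib, ← Finset.mul_sum,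
              Finset.sum_const, Finset.card_univ, Fintype.card_fun, Fintype.card_fin,
              nsmul_eq_mul, mul_one]
            push_cast
            ring
    -- conclusion
    have hNA : (0 : ℝ) < (N : ℝ) ^ Fintype.card A * (N : ℝ) ^ Fintype.card B := by positivity
    have hNE : (0 : ℝ) < ((N : ℝ) * (N : ℝ)) ^ #E := by positivity
    have h5 : w ^ #E * ((N : ℝ) ^ Fintype.card A * (N : ℝ) ^ Fintype.card B) ≤
        (N : ℝ) ^ Fintype.card A * (N : ℝ) ^ Fintype.card B * T +
          M ^ #E * ((N : ℝ) ^ Fintype.card A * (N : ℝ) ^ Fintype.card B -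
            (N.descFactorial (Fintype.card A) : ℝ) * (N.descFactorial (Fintype.card B) : ℝ)) := by
      refine le_of_mul_le_mul_left ?_ hNE
      calc ((N : ℝ) * (N : ℝ)) ^ #E *
            (w ^ #E * ((N : ℝ) ^ Fintype.card A * (N : ℝ) ^ Fintype.card B))
          = ((N : ℝ) * N * w) ^ #E * ((N : ℝ) ^ Fintype.card A * (N : ℝ) ^ Fintype.card B) := by
            rw [mul_pow ((N : ℝ) * N) w]; ring
        _ ≤ (∫ z, (∑ i, ∑ j, W (z.1 i) (z.2 j)) ^ #E ∂P) *
            ((N : ℝ) ^ Fintype.card A * (N : ℝ) ^ Fintype.card B) :=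
            mul_le_mul_of_nonneg_right hjen hNA.le
        _ ≤ _ := hint
        _ ≤ _ := mul_le_mul_of_nonneg_left hsum hNE.le
    have h6 : w ^ #E ≤ ((N : ℝ) ^ Fintype.card A * (N : ℝ) ^ Fintype.card B * T +
          M ^ #E * ((N : ℝ) ^ Fintype.card A * (N : ℝ) ^ Fintype.card B -
            (N.descFactorial (Fintype.card A) : ℝ) * (N.descFactorial (Fintype.card B) : ℝ))) /
          ((N : ℝ) ^ Fintype.card A * (N : ℝ) ^ Fintype.card B) := by
      rw [le_div_iff₀ hNA]
      exact h5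
    refine h6.trans (le_of_eq ?_)
    field_simp
  have hlim : Filter.Tendsto (fun N : ℕ => T + M ^ #E *
      (1 - (N.descFactorial (Fintype.card A) : ℝ) / (N : ℝ) ^ (Fintype.card A) *
        ((N.descFactorial (Fintype.card B) : ℝ) / (N : ℝ) ^ (Fintype.card B)))) Filter.atTop
      (nhds (T + M ^ #E * (1 - 1 * 1))) :=
    tendsto_const_nhds.add (tendsto_const_nhds.mul (tendsto_const_nhds.sub
      ((sam_tendsto _).mul (sam_tendsto _))))
  have h7 := ge_of_tendsto hlim ((Filter.eventually_gt_atTop 0).mono key)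
  simpa using h7

end P050
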