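import Vale.Agent.Lib.P050.Finite
import Vale.Agent.Lib.P050.Sample
import Vale.Agent.Lib.P050.Graph

/-!
# P050: kernels of rank at most two are TP2 orderable; Sidorenko inequality for TP2 kernels
-/

namespace P050

open Finset MeasureTheory

theorem ratio_aux {p q p' q' : ℝ} (hp : 0 ≤ p) (hq : 0 ≤ q) (hp' : 0 ≤ p') (hq' : 0 ≤ q')
    (h : q / (p + q) ≤ q' / (p' + q')) : 0 ≤ p * q' - q * p' := by
  rcases (add_nonneg hp hq).eq_or_lt with h0 | h0
  · have h1 : p = 0 := by linarith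
    have h2 : q = 0 := by linarith
    rw [h1, h2]; simp
  rcases (add_nonneg hp' hq').eq_or_lt with h0' | h0'
  · have h1 : p' = 0 := by linarith
    have h2 : q' = 0 := by linarith
    rw [h1, h2]; simp
  rw [div_le_div_iff₀ h0 h0'] at h
  nlinarith

/-- a nonnegative kernel of rank at most two is TP2 for suitable orderings of the points. -/
theorem tp2_of_rankTwo {X Y : Type*} (W : X → Y → ℝ) (h0 : ∀ x y, 0 ≤ W x y)
    (hr : ∃ (f₁ f₂ : X → ℝ) (g₁ g₂ : Y → ℝ), ∀ x y, W x y = f₁ x * g₁ y + f₂ x * g₂ y) :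
    ∃ (u : X → ℝ) (v : Y → ℝ), TP2 u v W := by
  obtain ⟨f₁, f₂, g₁, g₂, hW⟩ := hr
  by_cases hall : ∀ x₁ x₂ y₁ y₂, W x₁ y₁ * W x₂ y₂ ≤ W x₁ y₂ * W x₂ y₁
  · exact ⟨fun _ => 0, fun _ => 0, fun x x' y y' _ _ => hall x x' y' y⟩
  · simp only [not_forall, not_le] at hall
    obtain ⟨x₁, x₂, y₁, y₂, hm⟩ := hall
    refine ⟨fun x => W x y₂ / (W x y₁ + W x y₂), fun y => W x₂ y / (W x₁ y + W x₂ y), ?_⟩
    intro x x' y y' hx hy
    have hr := ratio_aux (h0 x y₁) (h0 x y₂) (h0 x' y₁) (h0 x' y₂) hx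
    have hc := ratio_aux (h0 x₁ y) (h0 x₂ y) (h0 x₁ y') (h0 x₂ y') hy
    have hid : (W x₁ y₁ * W x₂ y₂ - W x₁ y₂ * W x₂ y₁) *
        (W x y * W x' y' - W x y' * W x' y) =
        (W x y₁ * W x' y₂ - W x y₂ * W x' y₁) * (W x₁ y * W x₂ y' - W x₂ y * W x₁ y') := by
      simp only [hW]; ring
    have hpos : 0 < W x₁ y₁ * W x₂ y₂ - W x₁ y₂ * W x₂ y₁ := by linarith
    have hprod : 0 ≤ (W x₁ y₁ * W x₂ y₂ - W x₁ y₂ * W x₂ y₁) *
        (W x y * W x' y' - W x y' * W x' y) := by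
      rw [hid]; exact mul_nonneg hr hc
    have := nonneg_of_mul_nonneg_right hprod hpos
    linarith

/-- Sidorenko inequality, bipartite form, for TP2 kernels on arbitrary probability spaces. -/
theorem kernel_sidorenko {A B Ω Ω' : Type*} [Fintype A] [Fintype B] [DecidableEq A]
    [DecidableEq B] [MeasurableSpace Ω] [MeasurableSpace Ω'] (μ : Measure Ω)
    [IsProbabilityMeasure μ] (ν : Measure Ω') [IsProbabilityMeasure ν] (W : Ω → Ω' → ℝ)
    (hm : Measurable (Function.uncurry W)) (h0 : ∀ x y, 0 ≤ W x y) (M : ℝ)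
    (hM : ∀ x y, W x y ≤ M) (u : Ω → ℝ) (v : Ω' → ℝ) (hW : TP2 u v W) (E : Finset (A × B)) :
    (∫ x, ∫ y, W x y ∂ν ∂μ) ^ #E ≤
      ∫ x : A → Ω, ∫ y : B → Ω', ∏ e ∈ E, W (x e.1) (y e.2) ∂(Measure.pi fun _ => ν)
        ∂(Measure.pi fun _ => μ) := by
  refine sample μ ν W hm h0 M hM E ?_
  intro N _ x y
  have h := finite_sidorenko (A := A) (B := B) (fun i : Fin N => u (x i))
    (fun j : Fin N => v (y j)) E (fun i j => W (x i) (y j)) (fun i j => h0 _ _)
    (fun i i' j j' hi hj => hW _ _ _ _ hi hj)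
  simpa only [Fintype.card_fin, homF] using h

/-- Sidorenko inequality for bipartite graphs and symmetric TP2 kernels on the unit interval. -/
theorem graph_sidorenko {V : Type*} [Fintype V] [DecidableEq V] (H : SimpleGraph V)
    [DecidableRel H.Adj] (hH : H.Colorable 2) (W : unitInterval → unitInterval → ℝ)
    (hs : ∀ x y, W x y = W y x) (hm : Measurable (Function.uncurry W))
    (h0 : ∀ x y, 0 ≤ W x y) (M : ℝ) (hM : ∀ x y, W x y ≤ M)
    (u v : unitInterval → ℝ) (hW : TP2 u v W) :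
    (∫ x, ∫ y, W x y) ^ #H.edgeFinset ≤ tH H W hs := by
  obtain ⟨c, _, E, hE, ht⟩ := tH_eq H W hs hm M h0 hM hH
  rw [ht, ← hE]
  exact kernel_sidorenko volume volume W hm h0 M hM u v hW E

end P050
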