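import Vale.Agent.Lib.P050.Defs

/-!
# P050: marginals of products of arrangement increasing kernels
-/

namespace P050

open Finset

variable {A B I J : Type*}

/-- sign of a bit. -/
noncomputable def sg (b : Bool) : ℝ := if b then -1 else 1

theorem sg_not (b : Bool) : sg (!b) = - sg b := by cases b <;> simp [sg]

theorem sum_pow_nonneg [Fintype A] [DecidableEq A] (ε : A → ℝ) (m : A → ℕ) : 0 ≤ ∑ s : A → Bool, ∏ a, (ε a * sg (s a)) ^ m a := by
  have h := Finset.prod_univ_sum (fun _ : A => (Finset.univ : Finset Bool))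
    (fun a c => (ε a * sg c) ^ m a)
  rw [Fintype.piFinset_univ] at h
  rw [← h]
  refine Finset.prod_nonneg fun a _ => ?_
  rw [Fintype.sum_bool]
  simp only [sg, if_true, Bool.false_eq_true, if_false]
  rcases Nat.even_or_odd (m a) with he | ho
  · exact add_nonneg (he.pow_nonneg _) (he.pow_nonneg _)
  · have : (ε a * -1) ^ m a = - (ε a * 1) ^ m a := by
      rw [show ε a * -1 = -(ε a * 1) by ring, ho.neg_pow]
    rw [this]; simp

theorem gks [Fintype A] [Fintype B] [DecidableEq A] [DecidableEq B] (E : Finset (A × B))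
    (ε : A → ℝ) (η : B → ℝ)
    (p q : A × B → ℝ) (hp : ∀ e, 0 ≤ p e) (hq : ∀ e, 0 ≤ q e) :
    ∀ (m : A → ℕ) (n : B → ℕ),
    0 ≤ ∑ s : A → Bool, ∑ t : B → Bool,
      ((∏ a, (ε a * sg (s a)) ^ m a) * (∏ b, (η b * sg (t b)) ^ n b)) *
        ∏ e ∈ E, (p e + q e * ((ε e.1 * sg (s e.1)) * (η e.2 * sg (t e.2)))) := by
  induction E using Finset.induction_on with
  | empty =>
    intro m n
    simp only [Finset.prod_empty, mul_one]
    have : ∑ s : A → Bool, ∑ t : B → Bool,
        (∏ a, (ε a * sg (s a)) ^ m a) * (∏ b, (η b * sg (t b)) ^ n b) =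
        (∑ s : A → Bool, ∏ a, (ε a * sg (s a)) ^ m a) *
          ∑ t : B → Bool, ∏ b, (η b * sg (t b)) ^ n b := by
      rw [Finset.sum_mul_sum]
    rw [this]
    exact mul_nonneg (sum_pow_nonneg ε m) (sum_pow_nonneg η n)
  | insert e0 E he ih =>
    intro m n
    have h1 := ih m n
    have h2 := ih (fun a => m a + if a = e0.1 then 1 else 0) (fun b => n b + if b = e0.2 then 1 else 0)
    have hA : ∀ s : A → Bool, (∏ a, (ε a * sg (s a)) ^ (m a + if a = e0.1 then 1 else 0)) =
        (∏ a, (ε a * sg (s a)) ^ m a) * (ε e0.1 * sg (s e0.1)) := by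
      intro s
      simp only [pow_add, Finset.prod_mul_distrib]
      congr 1
      rw [Finset.prod_eq_single e0.1]
      · simp
      · intro b _ hb; simp [hb]
      · intro h; exact absurd (Finset.mem_univ _) h
    have hB : ∀ t : B → Bool, (∏ b, (η b * sg (t b)) ^ (n b + if b = e0.2 then 1 else 0)) =
        (∏ b, (η b * sg (t b)) ^ n b) * (η e0.2 * sg (t e0.2)) := by
      intro t
      simp only [pow_add, Finset.prod_mul_distrib]
      congr 1
      rw [Finset.prod_eq_single e0.2]
      · simp
      · intro b _ hb; simp [hb]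
      · intro h; exact absurd (Finset.mem_univ _) h
    simp only [hA, hB] at h2
    have key : ∑ s : A → Bool, ∑ t : B → Bool,
        ((∏ a, (ε a * sg (s a)) ^ m a) * (∏ b, (η b * sg (t b)) ^ n b)) *
        ∏ e ∈ insert e0 E, (p e + q e * ((ε e.1 * sg (s e.1)) * (η e.2 * sg (t e.2)))) =
        p e0 * (∑ s : A → Bool, ∑ t : B → Bool,
          ((∏ a, (ε a * sg (s a)) ^ m a) * (∏ b, (η b * sg (t b)) ^ n b)) *
          ∏ e ∈ E, (p e + q e * ((ε e.1 * sg (s e.1)) * (η e.2 * sg (t e.2))))) +
        q e0 * (∑ s : A → Bool, ∑ t : B → Bool,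
          (((∏ a, (ε a * sg (s a)) ^ m a) * (ε e0.1 * sg (s e0.1))) *
            ((∏ b, (η b * sg (t b)) ^ n b) * (η e0.2 * sg (t e0.2)))) *
          ∏ e ∈ E, (p e + q e * ((ε e.1 * sg (s e.1)) * (η e.2 * sg (t e.2))))) := by
      rw [Finset.mul_sum, Finset.mul_sum, ← Finset.sum_add_distrib]
      refine Finset.sum_congr rfl fun s _ => ?_
      rw [Finset.mul_sum, Finset.mul_sum, ← Finset.sum_add_distrib]
      refine Finset.sum_congr rfl fun t _ => ?_
      rw [Finset.prod_insert he]
      ring
    rw [key]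
    exact add_nonneg (mul_nonneg (hp e0) h1) (mul_nonneg (hq e0) h2)

/-- flip a string by a permutation if the bit is set. -/
def flip {k : ℕ} (τ : Equiv.Perm (Fin k)) (b : Bool) (z : Fin k → I) : Fin k → I :=
  if b then z ∘ τ else z

/-- the flips as an equivalence of labelings. -/
def flipEquiv {k : ℕ} (i j : Fin k) (s : A → Bool) : (A → (Fin k → I)) ≃ (A → (Fin k → I)) where
  toFun φ a := flip (Equiv.swap i j) (s a) (φ a)
  invFun φ a := flip (Equiv.swap i j) (s a) (φ a)
  left_inv φ := by
    funext a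
    unfold flip
    by_cases h : s a = true
    · simp only [h, if_true]
      funext l; simp [Function.comp]
    · simp [h]
  right_inv φ := by
    funext a
    unfold flip
    by_cases h : s a = true
    · simp only [h, if_true]
      funext l; simp [Function.comp]
    · simp [h]

/-- permuting the positions of all strings. -/
def permEquiv {k : ℕ} (σ : Equiv.Perm (Fin k)) : (A → (Fin k → I)) ≃ (A → (Fin k → I)) where
  toFun φ a := φ a ∘ σ
  invFun φ a := φ a ∘ σ.symm
  left_inv φ := by funext a l; simp [Function.comp]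
  right_inv φ := by funext a l; simp [Function.comp]

theorem comp_swap_swap {k : ℕ} (i j : Fin k) (z : Fin k → I) :
    (z ∘ Equiv.swap i j) ∘ Equiv.swap i j = z := by
  funext l; simp [Function.comp]

theorem comp_swap_left {k : ℕ} (i j : Fin k) (z : Fin k → I) :
    (z ∘ Equiv.swap i j) i = z j := by simp

theorem comp_swap_right {k : ℕ} (i j : Fin k) (z : Fin k → I) :
    (z ∘ Equiv.swap i j) j = z i := by simp

section

variable {k : ℕ} {u : I → ℝ} {v : J → ℝ}

theorem AI.swap_right {L : (Fin k → I) → (Fin k → J) → ℝ} (hL : AI u v L) (i j : Fin k)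
    (x : Fin k → I) (y : Fin k → J) :
    L (x ∘ Equiv.swap i j) (y ∘ Equiv.swap i j) = L x y := hL.inv _ _ _

theorem AI.swap_left {L : (Fin k → I) → (Fin k → J) → ℝ} (hL : AI u v L) (i j : Fin k)
    (x : Fin k → I) (y : Fin k → J) :
    L (x ∘ Equiv.swap i j) y = L x (y ∘ Equiv.swap i j) := by
  have := hL.inv (Equiv.swap i j) x (y ∘ Equiv.swap i j)
  rw [comp_swap_swap] at this
  exact this

/-- orientation of a string at the positions `i, j`. -/
noncomputable def ori {K : Type*} (w : K → ℝ) (i j : Fin k) (z : Fin k → K) : ℝ :=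
  if w (z i) ≤ w (z j) then 1 else -1

theorem AI.diff {L : (Fin k → I) → (Fin k → J) → ℝ} (hL : AI u v L) (i j : Fin k)
    (x : Fin k → I) (y : Fin k → J) :
    (L x y - L x (y ∘ Equiv.swap i j)) / 2 =
      |(L x y - L x (y ∘ Equiv.swap i j)) / 2| * (ori u i j x * ori v i j y) := by
  unfold ori
  by_cases hx : u (x i) ≤ u (x j) <;> by_cases hy : v (y i) ≤ v (y j)
  · have h := hL.swap i j x y hx hy
    rw [if_pos hx, if_pos hy, abs_of_nonneg (by linarith)]; ring
  · have hy' : v ((y ∘ Equiv.swap i j) i) ≤ v ((y ∘ Equiv.swap i j) j) := by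
      rw [comp_swap_left, comp_swap_right]; exact (not_le.mp hy).le
    have h := hL.swap i j x (y ∘ Equiv.swap i j) hx hy'
    rw [comp_swap_swap] at h
    rw [if_pos hx, if_neg hy, abs_of_nonpos (by linarith)]; ring
  · have hx' : u ((x ∘ Equiv.swap i j) i) ≤ u ((x ∘ Equiv.swap i j) j) := by
      rw [comp_swap_left, comp_swap_right]; exact (not_le.mp hx).le
    have h := hL.swap i j (x ∘ Equiv.swap i j) y hx' hy
    rw [hL.swap_right, hL.swap_left] at h
    rw [if_neg hx, if_pos hy, abs_of_nonpos (by linarith)]; ring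
  · have hx' : u ((x ∘ Equiv.swap i j) i) ≤ u ((x ∘ Equiv.swap i j) j) := by
      rw [comp_swap_left, comp_swap_right]; exact (not_le.mp hx).le
    have hy' : v ((y ∘ Equiv.swap i j) i) ≤ v ((y ∘ Equiv.swap i j) j) := by
      rw [comp_swap_left, comp_swap_right]; exact (not_le.mp hy).le
    have h := hL.swap i j (x ∘ Equiv.swap i j) (y ∘ Equiv.swap i j) hx' hy'
    rw [comp_swap_swap, hL.swap_right, hL.swap_left] at h
    rw [if_neg hx, if_neg hy, abs_of_nonneg (by linarith)]; ring

theorem AI.flip_eq {L : (Fin k → I) → (Fin k → J) → ℝ} (hL : AI u v L) (i j : Fin k)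
    (x : Fin k → I) (y : Fin k → J) (s t : Bool) :
    L (flip (Equiv.swap i j) s x) (flip (Equiv.swap i j) t y) =
      (L x y + L x (y ∘ Equiv.swap i j)) / 2 +
        |(L x y - L x (y ∘ Equiv.swap i j)) / 2| *
          ((ori u i j x * sg s) * (ori v i j y * sg t)) := by
  have hd := hL.diff i j x y
  have hrew : |(L x y - L x (y ∘ Equiv.swap i j)) / 2| *
          ((ori u i j x * sg s) * (ori v i j y * sg t)) =
      ((L x y - L x (y ∘ Equiv.swap i j)) / 2) * (sg s * sg t) := by
    rw [show |(L x y - L x (y ∘ Equiv.swap i j)) / 2| *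
          ((ori u i j x * sg s) * (ori v i j y * sg t)) =
          (|(L x y - L x (y ∘ Equiv.swap i j)) / 2| * (ori u i j x * ori v i j y)) *
            (sg s * sg t) by ring, ← hd]
  rw [hrew]
  cases s <;> cases t <;> simp [flip, sg, hL.swap_right, hL.swap_left] <;> ring

end

theorem sum_sg [Fintype A] [DecidableEq A] (a₀ : A) : ∑ s : A → Bool, sg (s a₀) = 0 := by
  have h : ∑ s : A → Bool, sg (s a₀) = ∑ s : A → Bool, sg (!(s a₀)) := by
    refine Fintype.sum_equiv ⟨fun s a => !(s a), fun s a => !(s a), ?_, ?_⟩ _ _ ?_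
    · intro s; funext a; simp
    · intro s; funext a; simp
    · intro s; simp
  simp only [sg_not, Finset.sum_neg_distrib] at h
  linarith

/-- marginals of products of arrangement increasing kernels are arrangement increasing. -/
theorem marg_AI {k : ℕ} [Fintype A] [Fintype B] [DecidableEq A] [DecidableEq B] [Fintype I]
    [Fintype J] [DecidableEq I] [DecidableEq J] (u : I → ℝ) (v : J → ℝ) (E : Finset (A × B))
    (L : A × B → (Fin k → I) → (Fin k → J) → ℝ) (hL : ∀ e, AI u v (L e)) (a₀ : A) (b₀ : B) :
    AI u v (marg E L a₀ b₀) := by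
  have hinv : ∀ (σ : Equiv.Perm (Fin k)) (x : Fin k → I) (y : Fin k → J),
      marg E L a₀ b₀ (x ∘ σ) (y ∘ σ) = marg E L a₀ b₀ x y := by
    intro σ x y
    unfold marg
    symm
    refine Fintype.sum_equiv (permEquiv σ) _ _ fun φ => ?_
    refine Fintype.sum_equiv (permEquiv σ) _ _ fun ψ => ?_
    have hcond : (φ a₀ = x ∧ ψ b₀ = y) ↔
        (permEquiv σ φ a₀ = x ∘ σ ∧ permEquiv σ ψ b₀ = y ∘ σ) := by
      constructor
      · rintro ⟨h1, h2⟩; exact ⟨by simp [permEquiv, h1], by simp [permEquiv, h2]⟩
      · rintro ⟨h1, h2⟩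
        constructor
        · funext l; have := congrFun h1 (σ.symm l); simpa [permEquiv] using this
        · funext l; have := congrFun h2 (σ.symm l); simpa [permEquiv] using this
    simp only [hcond]
    split_ifs with hc
    · refine Finset.prod_congr rfl fun e _ => ?_
      exact ((hL e).inv σ _ _).symm
    · rfl
  refine ⟨?_, hinv, ?_⟩
  · intro x y
    unfold marg
    refine Finset.sum_nonneg fun φ _ => Finset.sum_nonneg fun ψ _ => ?_
    split_ifs
    · exact Finset.prod_nonneg fun e _ => (hL e).nonneg _ _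
    · exact le_refl _
  · intro i j x y hx hy
    set P := marg E L a₀ b₀ x y with hP
    set Q := marg E L a₀ b₀ x (y ∘ Equiv.swap i j) with hQ
    have hQ' : marg E L a₀ b₀ (x ∘ Equiv.swap i j) y = Q := by
      have := hinv (Equiv.swap i j) x (y ∘ Equiv.swap i j)
      rw [comp_swap_swap] at this
      rw [this]
    have hPP : marg E L a₀ b₀ (x ∘ Equiv.swap i j) (y ∘ Equiv.swap i j) = P := hinv _ _ _
    -- evaluation of the sum over the flips
    have hval : ∀ s t : Bool,
        marg E L a₀ b₀ (flip (Equiv.swap i j) s x) (flip (Equiv.swap i j) t y) =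
          (P + Q) / 2 + (P - Q) / 2 * (sg s * sg t) := by
      intro s t
      cases s <;> cases t <;> simp [flip, sg, hQ', hPP, ← hP, ← hQ] <;> ring
    have hS1 : ∑ s : A → Bool, ∑ t : B → Bool, (sg (s a₀) * sg (t b₀)) *
        marg E L a₀ b₀ (flip (Equiv.swap i j) (s a₀) x) (flip (Equiv.swap i j) (t b₀) y) =
        (P - Q) / 2 * ((Fintype.card (A → Bool) : ℝ) * (Fintype.card (B → Bool) : ℝ)) := by
      have hterm : ∀ (s : A → Bool) (t : B → Bool), (sg (s a₀) * sg (t b₀)) *
          marg E L a₀ b₀ (flip (Equiv.swap i j) (s a₀) x) (flip (Equiv.swap i j) (t b₀) y) =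
          (P + Q) / 2 * (sg (s a₀) * sg (t b₀)) + (P - Q) / 2 := by
        intro s t
        rw [hval]
        have h1 : sg (s a₀) * sg (s a₀) = 1 := by cases s a₀ <;> simp [sg]
        have h2 : sg (t b₀) * sg (t b₀) = 1 := by cases t b₀ <;> simp [sg]
        have : sg (s a₀) * sg (t b₀) * ((P + Q) / 2 + (P - Q) / 2 * (sg (s a₀) * sg (t b₀))) =
          (P + Q) / 2 * (sg (s a₀) * sg (t b₀)) + (P - Q) / 2 *
            ((sg (s a₀) * sg (s a₀)) * (sg (t b₀) * sg (t b₀))) := by ring
        rw [this, h1, h2]; ring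
      simp only [hterm, Finset.sum_add_distrib, ← Finset.mul_sum, Finset.sum_const,
        Finset.card_univ, nsmul_eq_mul]
      rw [sum_sg b₀]
      simp only [mul_zero, Finset.sum_const_zero]
      ring
    -- the same sum is nonnegative
    have hS2 : 0 ≤ ∑ s : A → Bool, ∑ t : B → Bool, (sg (s a₀) * sg (t b₀)) *
        marg E L a₀ b₀ (flip (Equiv.swap i j) (s a₀) x) (flip (Equiv.swap i j) (t b₀) y) := by
      have hre : ∀ (s : A → Bool) (t : B → Bool),
          marg E L a₀ b₀ (flip (Equiv.swap i j) (s a₀) x) (flip (Equiv.swap i j) (t b₀) y) =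
          ∑ φ : A → (Fin k → I), ∑ ψ : B → (Fin k → J),
            if φ a₀ = x ∧ ψ b₀ = y then ∏ e ∈ E,
              L e (flip (Equiv.swap i j) (s e.1) (φ e.1)) (flip (Equiv.swap i j) (t e.2) (ψ e.2))
            else 0 := by
        intro s t
        unfold marg
        symm
        refine Fintype.sum_equiv (flipEquiv i j s) _ _ fun φ => ?_
        refine Fintype.sum_equiv (flipEquiv i j t) _ _ fun ψ => ?_
        have hcond : (φ a₀ = x ∧ ψ b₀ = y) ↔
            (flipEquiv i j s φ a₀ = flip (Equiv.swap i j) (s a₀) x ∧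
              flipEquiv i j t ψ b₀ = flip (Equiv.swap i j) (t b₀) y) := by
          constructor
          · rintro ⟨h1, h2⟩; exact ⟨by simp [flipEquiv, h1], by simp [flipEquiv, h2]⟩
          · rintro ⟨h1, h2⟩
            constructor
            · simp only [flipEquiv, flip, Equiv.coe_fn_mk] at h1
              split_ifs at h1 with hs
              · funext l
                have := congrFun h1 (Equiv.swap i j l)
                simpa using this
              · exact h1
            · simp only [flipEquiv, flip, Equiv.coe_fn_mk] at h2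
              split_ifs at h2 with hs
              · funext l
                have := congrFun h2 (Equiv.swap i j l)
                simpa using this
              · exact h2
        simp only [hcond]
        rfl
      have hswap : ∑ s : A → Bool, ∑ t : B → Bool, (sg (s a₀) * sg (t b₀)) *
          marg E L a₀ b₀ (flip (Equiv.swap i j) (s a₀) x) (flip (Equiv.swap i j) (t b₀) y) =
          ∑ φ : A → (Fin k → I), ∑ ψ : B → (Fin k → J),
            ∑ s : A → Bool, ∑ t : B → Bool, (sg (s a₀) * sg (t b₀)) *
            (if φ a₀ = x ∧ ψ b₀ = y then ∏ e ∈ E,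
              L e (flip (Equiv.swap i j) (s e.1) (φ e.1)) (flip (Equiv.swap i j) (t e.2) (ψ e.2))
            else 0) := by
        simp only [hre, Finset.mul_sum]
        calc _ = ∑ s : A → Bool, ∑ φ : A → (Fin k → I), ∑ t : B → Bool, ∑ ψ : B → (Fin k → J), _ :=
              Finset.sum_congr rfl fun s _ => Finset.sum_comm
          _ = ∑ φ : A → (Fin k → I), ∑ s : A → Bool, ∑ t : B → Bool, ∑ ψ : B → (Fin k → J), _ :=
              Finset.sum_comm
          _ = ∑ φ : A → (Fin k → I), ∑ s : A → Bool, ∑ ψ : B → (Fin k → J), ∑ t : B → Bool, _ :=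
              Finset.sum_congr rfl fun φ _ => Finset.sum_congr rfl fun s _ => Finset.sum_comm
          _ = _ := Finset.sum_congr rfl fun φ _ => Finset.sum_comm
      rw [hswap]
      refine Finset.sum_nonneg fun φ _ => Finset.sum_nonneg fun ψ _ => ?_
      by_cases hc : φ a₀ = x ∧ ψ b₀ = y
      · simp only [if_pos hc]
        have hg := gks E (fun a => ori u i j (φ a)) (fun b => ori v i j (ψ b))
          (fun e => (L e (φ e.1) (ψ e.2) + L e (φ e.1) (ψ e.2 ∘ Equiv.swap i j)) / 2)
          (fun e => |(L e (φ e.1) (ψ e.2) - L e (φ e.1) (ψ e.2 ∘ Equiv.swap i j)) / 2|)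
          (fun e => by
            have := (hL e).nonneg (φ e.1) (ψ e.2)
            have := (hL e).nonneg (φ e.1) (ψ e.2 ∘ Equiv.swap i j)
            positivity)
          (fun e => abs_nonneg _)
          (fun a => if a = a₀ then 1 else 0) (fun b => if b = b₀ then 1 else 0)
        have hx1 : ori u i j (φ a₀) = 1 := by rw [hc.1]; unfold ori; rw [if_pos hx]
        have hy1 : ori v i j (ψ b₀) = 1 := by rw [hc.2]; unfold ori; rw [if_pos hy]
        have hA : ∀ s : A → Bool, (∏ a, (ori u i j (φ a) * sg (s a)) ^ (if a = a₀ then 1 else 0)) =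
            sg (s a₀) := by
          intro s
          rw [Finset.prod_eq_single a₀]
          · simp [hx1]
          · intro b _ hb; simp [hb]
          · intro h; exact absurd (Finset.mem_univ _) h
        have hB : ∀ t : B → Bool, (∏ b, (ori v i j (ψ b) * sg (t b)) ^ (if b = b₀ then 1 else 0)) =
            sg (t b₀) := by
          intro t
          rw [Finset.prod_eq_single b₀]
          · simp [hy1]
          · intro b _ hb; simp [hb]
          · intro h; exact absurd (Finset.mem_univ _) h
        simp only [hA, hB] at hg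
        have heq : ∀ (s : A → Bool) (t : B → Bool), (∏ e ∈ E,
              L e (flip (Equiv.swap i j) (s e.1) (φ e.1)) (flip (Equiv.swap i j) (t e.2) (ψ e.2))) =
            ∏ e ∈ E, ((L e (φ e.1) (ψ e.2) + L e (φ e.1) (ψ e.2 ∘ Equiv.swap i j)) / 2 +
              |(L e (φ e.1) (ψ e.2) - L e (φ e.1) (ψ e.2 ∘ Equiv.swap i j)) / 2| *
              ((ori u i j (φ e.1) * sg (s e.1)) * (ori v i j (ψ e.2) * sg (t e.2)))) := by
          intro s t
          exact Finset.prod_congr rfl fun e _ => (hL e).flip_eq i j _ _ _ _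
        simp only [heq]
        exact hg
      · simp only [if_neg hc, mul_zero, Finset.sum_const_zero, le_refl]
    rw [hS1] at hS2
    have hcard : (0 : ℝ) < (Fintype.card (A → Bool) : ℝ) * (Fintype.card (B → Bool) : ℝ) := by
      have h1 : 0 < Fintype.card (A → Bool) := Fintype.card_pos
      have h2 : 0 < Fintype.card (B → Bool) := Fintype.card_pos
      positivity
    have : 0 ≤ (P - Q) / 2 := by
      by_contra hneg
      rw [not_le] at hneg
      have := mul_neg_of_neg_of_pos hneg hcard
      linarith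
    linarith

end P050
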